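import Vale.Agent.Lib.P226R.Defs

/-! Hyperplanes through the origin are Gaussian null, hence closed and open cells agree a.e. -/

open MeasureTheory ProbabilityTheory

namespace Vale.Agent.Lib.P226

variable {d n : ℕ}

/-- a hyperplane through the origin is null for the standard Gaussian measure -/
theorem gam_hyperplane_null (u : E d) (hu : u ≠ 0) :
    gam d {x | (inner ℝ x u : ℝ) = 0} = 0 := by
  let L : StrongDual ℝ (E d) := innerSL ℝ u
  have hL : ∀ x, L x = (inner ℝ x u : ℝ) := fun x => by simp [L, real_inner_comm]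
  have hmap : (gam d).map L = gaussianReal 0 (‖u‖ ^ 2).toNNReal := by
    have h1 := IsGaussian.map_eq_gaussianReal (μ := gam d) L
    rw [h1]
    congr 1
    · exact integral_strongDual_stdGaussian L
    · rw [variance_dual_stdGaussian]
      congr 1
      have : ‖L‖ = ‖u‖ := by simp [L]
      rw [this]
  have hv : (‖u‖ ^ 2).toNNReal ≠ 0 := by
    simpa [Real.toNNReal_eq_zero, not_le] using hu
  have hz : (gaussianReal 0 (‖u‖ ^ 2).toNNReal) {0} = 0 := by
    have : NullSingletonClass (gaussianReal 0 (‖u‖ ^ 2).toNNReal) :=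
      nullSingletonClass_gaussianReal hv
    exact measure_singleton 0
  rw [← hmap, Measure.map_apply L.continuous.measurable (measurableSet_singleton 0)] at hz
  convert hz using 2
  ext x
  simp [hL]

/-- null boundary of the cell -/
theorem cell_ae_eq (y0 : E d) (v : Fin n → E d) (h : ∀ l, v l ≠ y0) :
    cellC y0 v =ᵐ[gam d] cellO y0 v := by
  have hnull : ∀ l, ∀ᵐ x ∂(gam d), (inner ℝ x (v l) : ℝ) ≠ inner ℝ x y0 := by
    intro l
    have h0 := gam_hyperplane_null (v l - y0) (sub_ne_zero.mpr (h l))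
    rw [ae_iff]
    refine measure_mono_null (fun x hx => ?_) h0
    have hx' : (inner ℝ x (v l) : ℝ) = inner ℝ x y0 := by simpa using hx
    simp [inner_sub_right, hx']
  have hall : ∀ᵐ x ∂(gam d), ∀ l, (inner ℝ x (v l) : ℝ) ≠ inner ℝ x y0 := ae_all_iff.mpr hnull
  filter_upwards [hall] with x hx
  apply propext
  change (∀ l, (inner ℝ x (v l) : ℝ) ≤ inner ℝ x y0) ↔ (∀ l, (inner ℝ x (v l) : ℝ) < inner ℝ x y0)
  exact ⟨fun h1 l => lt_of_le_of_ne (h1 l) (hx l), fun h1 l => (h1 l).le⟩

end Vale.Agent.Lib.P226
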