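import Vale.Agent.Lib.P226R.Defs
import Vale.Agent.Lib.P226.Pair

/-!
The extremal fixed point of the width functional: a maximizer of `W` on centered configurations
with `TT = 1`, rescaled, equals the normalized moments of its own Voronoi partition.
-/

open MeasureTheory ProbabilityTheory

namespace Vale.Agent.Lib.P226

variable {d k : ℕ}

/-- Voronoi cell: `i` is the first maximizer of `⟪x, y j⟫`. -/
def fx_vorCell [NeZero k] (y : Fin k → E d) (i : Fin k) : Set (E d) :=
  {x | (inner ℝ x (y i) : ℝ) = mx y x ∧ ∀ j, j < i → (inner ℝ x (y j) : ℝ) < mx y x}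

theorem fx_vorCell_isPart [NeZero k] (y : Fin k → E d) : IsPart (fx_vorCell y) := by
  classical
  have hmeas : ∀ i, MeasurableSet (fx_vorCell y i) := by
    intro i
    have h1 : MeasurableSet {x : E d | (inner ℝ x (y i) : ℝ) = mx y x} :=
      measurableSet_eq_fun (by fun_prop) (continuous_mx y).measurable
    have h2 : MeasurableSet (⋂ j ∈ {j | j < i}, {x : E d | (inner ℝ x (y j) : ℝ) < mx y x}) := by
      refine MeasurableSet.biInter (Set.to_countable _) (fun j _ => ?_)
      exact measurableSet_lt (by fun_prop) (continuous_mx y).measurable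
    have : fx_vorCell y i = {x : E d | (inner ℝ x (y i) : ℝ) = mx y x} ∩
        (⋂ j ∈ {j | j < i}, {x : E d | (inner ℝ x (y j) : ℝ) < mx y x}) := by
      ext x
      simp [fx_vorCell]
    rw [this]
    exact h1.inter h2
  refine ⟨hmeas, ?_, ?_⟩
  · intro i j hij
    refine Set.disjoint_left.mpr (fun x hi hj => ?_)
    rcases lt_or_gt_of_ne hij with h | h
    · exact absurd hi.1 (ne_of_lt (hj.2 i h))
    · exact absurd hj.1 (ne_of_lt (hi.2 j h))
  · ext x
    simp only [Set.mem_iUnion, Set.mem_univ, iff_true]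
    let S : Finset (Fin k) := Finset.univ.filter (fun i => (inner ℝ x (y i) : ℝ) = mx y x)
    obtain ⟨i0, hi0⟩ := exists_eq_mx y x
    have hS : S.Nonempty := ⟨i0, by simp [S, hi0]⟩
    refine ⟨S.min' hS, ?_⟩
    have hmem := S.min'_mem hS
    simp only [S, Finset.mem_filter, Finset.mem_univ, true_and] at hmem
    refine ⟨hmem, fun j hj => ?_⟩
    refine lt_of_le_of_ne (inner_le_mx y x j) (fun heq => ?_)
    have : S.min' hS ≤ j := Finset.min'_le S j (by simp [S, heq])
    exact absurd hj (not_lt.mpr this)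

theorem fx_W_eq_sum_vor [NeZero k] (y : Fin k → E d) :
    W y = ∑ i, inner ℝ (nz (fx_vorCell y i)) (y i) := by
  have hpart := fx_vorCell_isPart y
  rw [W_eq_sum_setIntegral hpart y]
  simp only [inner_nz]
  rw [← Finset.mul_sum]
  congr 1
  refine Finset.sum_congr rfl (fun i _ => ?_)
  refine setIntegral_congr_fun (hpart.meas i) (fun x hx => ?_)
  exact hx.1.symm

/-- `mx` is Lipschitz in the configuration. -/
theorem fx_abs_mx_sub_le [NeZero k] (y y' : Fin k → E d) (x : E d) :
    |mx y x - mx y' x| ≤ ‖x‖ * ‖y - y'‖ := by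
  have key : ∀ (a b : Fin k → E d), mx a x - mx b x ≤ ‖x‖ * ‖a - b‖ := by
    intro a b
    obtain ⟨i, hi⟩ := exists_eq_mx a x
    rw [← hi]
    have h1 := inner_le_mx b x i
    have h2 : (inner ℝ x (a i) : ℝ) - inner ℝ x (b i) = inner ℝ x (a i - b i) := by
      rw [inner_sub_right]
    have h3 : (inner ℝ x (a i - b i) : ℝ) ≤ ‖x‖ * ‖a i - b i‖ := real_inner_le_norm _ _
    have h4 : ‖a i - b i‖ ≤ ‖a - b‖ := by
      have := norm_le_pi_norm (a - b) i
      simpa using this
    have h5 : ‖x‖ * ‖a i - b i‖ ≤ ‖x‖ * ‖a - b‖ := mul_le_mul_of_nonneg_left h4 (norm_nonneg _)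
    linarith
  rw [abs_le]
  constructor
  · have := key y' y
    rw [norm_sub_rev] at this
    linarith
  · exact key y y'

theorem fx_continuous_W [NeZero k] : Continuous (fun y : Fin k → E d => W y) := by
  have hint : Integrable (fun x : E d => ‖x‖) (gam d) := (integrable_id_gam (d := d)).norm
  set C : ℝ := Real.sqrt (2 * Real.pi) * ∫ x, ‖x‖ ∂(gam d) with hC
  have hC0 : 0 ≤ C := by
    refine mul_nonneg (Real.sqrt_nonneg _) (integral_nonneg (fun x => norm_nonneg _))
  have hL : LipschitzWith C.toNNReal (fun y : Fin k → E d => W y) := by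
    refine LipschitzWith.of_dist_le_mul (fun y y' => ?_)
    rw [Real.dist_eq, dist_eq_norm, Real.coe_toNNReal _ hC0]
    unfold W
    rw [← mul_sub, abs_mul, abs_of_nonneg (Real.sqrt_nonneg _), hC, mul_assoc]
    refine mul_le_mul_of_nonneg_left ?_ (Real.sqrt_nonneg _)
    rw [← integral_sub (integrable_mx y) (integrable_mx y'), ← integral_mul_const]
    refine (abs_integral_le_integral_abs).trans ?_
    refine integral_mono ((integrable_mx y).sub (integrable_mx y')).abs (hint.mul_const _) ?_
    exact fun x => fx_abs_mx_sub_le y y' x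
  exact hL.continuous

theorem fx_continuous_TT : Continuous (fun y : Fin k → E d => TT y) := by
  unfold TT
  fun_prop

/-- A centered nonzero configuration has positive width. -/
theorem fx_W_pos [NeZero k] {y : Fin k → E d} (hs : ∑ i, y i = 0) (hT : 0 < TT y) : 0 < W y := by
  -- a nonzero vertex
  obtain ⟨i, hi⟩ : ∃ i, y i ≠ 0 := by
    by_contra hc
    push Not at hc
    have : TT y = 0 := by simp [TT, hc]
    linarith
  -- `mx` dominates `max 0 ⟪x, y i⟫`
  have hnn : ∀ x : E d, 0 ≤ mx y x := by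
    intro x
    have h1 : ∑ j, (inner ℝ x (y j) : ℝ) = 0 := by
      rw [← inner_sum, hs, inner_zero_right]
    by_contra hc
    push Not at hc
    have h2 : ∑ j, (inner ℝ x (y j) : ℝ) < 0 := by
      apply Finset.sum_neg (fun j _ => lt_of_le_of_lt (inner_le_mx y x j) hc) Finset.univ_nonempty
    linarith
  have h2 : ∀ x : E d, |(inner ℝ x (y i) : ℝ)| ≤ 2 * mx y x - inner ℝ x (y i) := by
    intro x
    have h1 := inner_le_mx y x i
    have h0 := hnn x
    rw [abs_le]
    constructor <;> linarith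
  have hint := integral_mono (integrable_abs_inner (y i))
    (((integrable_mx y).const_mul 2).sub (integrable_inner_gam (y i))) h2
  have e : ∫ x, ((fun x => 2 * mx y x) - fun x => (inner ℝ x (y i) : ℝ)) x ∂(gam d)
      = 2 * ∫ x, mx y x ∂(gam d) := by
    simp only [Pi.sub_apply]
    rw [integral_sub ((integrable_mx y).const_mul 2) (integrable_inner_gam (y i)),
      integral_inner_gam, integral_const_mul, sub_zero]
  rw [e] at hint
  have h3 := integral_abs_inner (d := d) (y i)
  have hs0 : 0 < Real.sqrt (2 * Real.pi) := by positivity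
  have hn : 0 < ‖y i‖ := norm_pos_iff.mpr hi
  unfold W
  have h4 := mul_le_mul_of_nonneg_left hint hs0.le
  rw [h3] at h4
  nlinarith

theorem fx_TT_smul (s : ℝ) (y : Fin k → E d) : TT (fun i => s • y i) = s ^ 2 * TT y := by
  simp only [TT, norm_smul, Real.norm_eq_abs, mul_pow, sq_abs, Finset.mul_sum]

/-- extremal fixed point -/
theorem exists_fixed {k : ℕ} [NeZero k] (y0 : Fin k → E d) (h : ∑ i, y0 i = 0) (hT : 0 < TT y0) :
    ∃ (K : ℝ) (y : Fin k → E d) (B : Fin k → Set (E d)), 0 < K ∧ ∑ i, y i = 0 ∧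
      W y0 ≤ K * Real.sqrt (TT y0) ∧
      TT y = K ^ 2 ∧ W y = K ^ 2 ∧ IsPart B ∧ (∀ i, nz (B i) = y i) ∧
      (∀ i x, (∀ j, j ≠ i → (inner ℝ x (y j) : ℝ) < inner ℝ x (y i)) → x ∈ B i) ∧
      (∀ i, ∀ x ∈ B i, ∀ j, (inner ℝ x (y j) : ℝ) ≤ inner ℝ x (y i)) := by
  classical
  -- the sphere of centered configurations
  set S : Set (Fin k → E d) := {y | ∑ i, y i = 0 ∧ TT y = 1} with hS
  have hclosed : IsClosed S := by
    have h1 : IsClosed {y : Fin k → E d | ∑ i, y i = 0} :=
      isClosed_eq (by fun_prop) continuous_const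
    have h2 : IsClosed {y : Fin k → E d | TT y = 1} :=
      isClosed_eq fx_continuous_TT continuous_const
    exact h1.inter h2
  have hbdd : Bornology.IsBounded S := by
    refine (Metric.isBounded_iff_subset_closedBall 0).mpr ⟨1, fun y hy => ?_⟩
    rw [mem_closedBall_zero_iff, pi_norm_le_iff_of_nonneg zero_le_one]
    intro i
    have h1 : ‖y i‖ ^ 2 ≤ TT y :=
      Finset.single_le_sum (f := fun j => ‖y j‖ ^ 2) (fun _ _ => by positivity) (Finset.mem_univ i)
    rw [hy.2] at h1
    nlinarith [norm_nonneg (y i)]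
  have hcomp : IsCompact S := Metric.isCompact_of_isClosed_isBounded hclosed hbdd
  -- scaling into the sphere
  have hscale : ∀ w : Fin k → E d, ∑ i, w i = 0 → 0 < TT w →
      (fun i => (Real.sqrt (TT w))⁻¹ • w i) ∈ S := by
    intro w hw hTw
    refine ⟨?_, ?_⟩
    · rw [← Finset.smul_sum, hw, smul_zero]
    · rw [fx_TT_smul, inv_pow, Real.sq_sqrt hTw.le]
      exact inv_mul_cancel₀ hTw.ne'
  have hne : S.Nonempty := ⟨_, hscale y0 h hT⟩
  obtain ⟨ys, hys, hmax⟩ := hcomp.exists_isMaxOn hne (fx_continuous_W.continuousOn)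
  set K : ℝ := W ys with hK
  have hKpos : 0 < K := fx_W_pos hys.1 (by rw [hys.2]; exact one_pos)
  -- the global bound
  have hbound : ∀ w : Fin k → E d, ∑ i, w i = 0 → W w ≤ K * Real.sqrt (TT w) := by
    intro w hw
    rcases (show 0 ≤ TT w from Finset.sum_nonneg (fun i _ => by positivity)).eq_or_lt with h0 | h0
    · have hz : ∀ i, w i = 0 := by
        intro i
        have h1 : ‖w i‖ ^ 2 ≤ TT w :=
          Finset.single_le_sum (f := fun j => ‖w j‖ ^ 2) (fun _ _ => by positivity)
            (Finset.mem_univ i)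
        rw [← h0] at h1
        have : ‖w i‖ = 0 := by nlinarith [norm_nonneg (w i)]
        exact norm_eq_zero.mp this
      have hW0 : W w = 0 := by
        have h1 := W_smul w (le_refl (0 : ℝ))
        have e : (fun i => (0 : ℝ) • w i) = w := by
          funext i
          simp [hz i]
        rw [e] at h1
        rw [h1]
        ring
      rw [hW0, ← h0, Real.sqrt_zero]
      simp
    · have h1 : W (fun i => (Real.sqrt (TT w))⁻¹ • w i) ≤ W ys := hmax (hscale w hw h0)
      have hs0 : 0 < Real.sqrt (TT w) := Real.sqrt_pos.mpr h0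
      rw [W_smul w (inv_nonneg.mpr hs0.le)] at h1
      rw [inv_mul_le_iff₀ hs0] at h1
      linarith [mul_comm (Real.sqrt (TT w)) (W ys)]
  -- the Voronoi partition of the maximizer
  set B : Fin k → Set (E d) := fx_vorCell ys with hB
  have hBpart : IsPart B := fx_vorCell_isPart ys
  set z : Fin k → E d := fun i => nz (B i) with hz
  have hzsum : ∑ i, z i = 0 := sum_nz_eq_zero hBpart
  have hKeq : K = ∑ i, inner ℝ (z i) (ys i) := fx_W_eq_sum_vor ys
  have hTz0 : 0 ≤ TT z := Finset.sum_nonneg (fun i _ => by positivity)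
  set τ : ℝ := Real.sqrt (TT z) with hτ
  have hτ0 : 0 ≤ τ := Real.sqrt_nonneg _
  have hτsq : τ ^ 2 = TT z := Real.sq_sqrt hTz0
  -- Cauchy-Schwarz
  have hCS : K ≤ τ := by
    have h1 : ∑ i, (inner ℝ (z i) (ys i) : ℝ) ≤ ∑ i, ‖z i‖ * ‖ys i‖ :=
      Finset.sum_le_sum (fun i _ => real_inner_le_norm _ _)
    have h2 : ∑ i, ‖z i‖ * ‖ys i‖ ≤ Real.sqrt (TT z) * Real.sqrt (TT ys) :=
      Real.sum_mul_le_sqrt_mul_sqrt _ _ _
    rw [hys.2, Real.sqrt_one, mul_one] at h2
    rw [hKeq]
    linarith
  have hτpos : 0 < τ := lt_of_lt_of_le hKpos hCS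
  -- the moments give the reverse bound
  have hle : τ ≤ K := by
    have h1 : TT z ≤ W z := by
      have := sum_inner_nz_le_W hBpart z
      refine le_trans (le_of_eq ?_) this
      simp only [TT]
      refine Finset.sum_congr rfl (fun i _ => ?_)
      rw [real_inner_self_eq_norm_sq]
    have h2 := hbound z hzsum
    have h3 : τ ^ 2 ≤ K * τ := by
      rw [hτsq]
      exact h1.trans h2
    nlinarith
  have hτK : τ = K := le_antisymm hle hCS
  have hTz : TT z = K ^ 2 := by rw [← hτsq, hτK]
  -- equality in Cauchy-Schwarz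
  have hzeq : ∀ i, z i = K • ys i := by
    have hsumzero : ∑ i, ‖z i - K • ys i‖ ^ 2 = 0 := by
      have e : ∀ i, ‖z i - K • ys i‖ ^ 2
          = ‖z i‖ ^ 2 - 2 * K * inner ℝ (z i) (ys i) + K ^ 2 * ‖ys i‖ ^ 2 := by
        intro i
        rw [@norm_sub_sq_real, norm_smul, real_inner_smul_right, Real.norm_eq_abs, mul_pow, sq_abs]
        ring
      simp only [e]
      rw [Finset.sum_add_distrib, Finset.sum_sub_distrib, ← Finset.mul_sum, ← Finset.mul_sum,
        ← hKeq]
      have h1 : ∑ i, ‖z i‖ ^ 2 = K ^ 2 := hTz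
      have h2 : ∑ i, ‖ys i‖ ^ 2 = 1 := hys.2
      rw [h1, h2]
      ring
    intro i
    have h1 := (Finset.sum_eq_zero_iff_of_nonneg (fun i _ => by positivity)).mp hsumzero i
      (Finset.mem_univ i)
    have h2 : ‖z i - K • ys i‖ = 0 := by
      have := pow_eq_zero_iff (n := 2) (by norm_num) |>.mp h1
      exact this
    exact sub_eq_zero.mp (norm_eq_zero.mp h2)
  have hzfun : z = fun i => K • ys i := funext hzeq
  have hinner : ∀ (x : E d) (i : Fin k), (inner ℝ x (z i) : ℝ) = K * inner ℝ x (ys i) := by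
    intro x i
    rw [hzeq i, real_inner_smul_right]
  refine ⟨K, z, B, hKpos, hzsum, hbound y0 h, hTz, ?_, hBpart, fun _ => rfl, ?_, ?_⟩
  · rw [hzfun, W_smul ys hKpos.le, ← hK]
    ring
  · intro i x hx
    have hlt : ∀ j, j ≠ i → (inner ℝ x (ys j) : ℝ) < inner ℝ x (ys i) := by
      intro j hj
      have := hx j hj
      rw [hinner, hinner] at this
      exact lt_of_mul_lt_mul_left this hKpos.le
    have hm : (inner ℝ x (ys i) : ℝ) = mx ys x := by
      obtain ⟨j, hj⟩ := exists_eq_mx ys x
      by_cases hji : j = i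
      · rw [← hj, hji]
      · have h1 := hlt j hji
        have h2 := inner_le_mx ys x i
        linarith
    refine ⟨hm, fun j hj => ?_⟩
    rw [← hm]
    exact hlt j (ne_of_lt hj)
  · intro i x hx j
    rw [hinner, hinner]
    refine mul_le_mul_of_nonneg_left ?_ hKpos.le
    have h1 : (inner ℝ x (ys i) : ℝ) = mx ys x := hx.1
    rw [h1]
    exact inner_le_mx ys x j

end Vale.Agent.Lib.P226
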