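import Vale.Agent.Lib.P226R.Defs
import Vale.Agent.Lib.P226.Deletion

/-!
General facts on the width functional: width bound from the partition bound, merging two cells,
deletion of a vertex.
-/

open MeasureTheory ProbabilityTheory

namespace Vale.Agent.Lib.P226

variable {d n : ℕ}

/-- width bound from the partition bound -/
theorem W_le_of_PBc {c : ℝ} {k : ℕ} [NeZero k] (h : PBc k c) (y : Fin k → E d) :
    W y ≤ Real.sqrt (2 * Real.pi * c) * Real.sqrt (TT y) := by
  obtain ⟨B, hB, -, hW⟩ := exists_voronoi y
  have hF := h d B hB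
  have hT : TT (fun i => nz (B i)) ≤ 2 * Real.pi * c := by
    rw [TT_nz_eq]
    exact mul_le_mul_of_nonneg_left hF (by positivity)
  rw [hW]
  have hCS : ∑ i, (inner ℝ (nz (B i)) (y i) : ℝ) ≤
      Real.sqrt (TT (fun i => nz (B i))) * Real.sqrt (TT y) := by
    have h1 : ∑ i, (inner ℝ (nz (B i)) (y i) : ℝ) ≤ ∑ i, ‖nz (B i)‖ * ‖y i‖ :=
      Finset.sum_le_sum (fun i _ => real_inner_le_norm _ _)
    refine le_trans h1 ?_
    exact Real.sum_mul_le_sqrt_mul_sqrt _ _ _
  refine le_trans hCS ?_
  apply mul_le_mul_of_nonneg_right _ (Real.sqrt_nonneg _)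
  exact Real.sqrt_le_sqrt hT

/-- merging two cells -/
theorem merge_PBc {c : ℝ} {m : ℕ} (h : PBc m c) {A : Fin (m + 1) → Set (E d)} (hA : IsPart A)
    {i j : Fin (m + 1)} (hij : i ≠ j) (hin : 0 ≤ (inner ℝ (mom (A i)) (mom (A j)) : ℝ)) :
    FF A ≤ c := by
  classical
  obtain ⟨j', rfl⟩ := Fin.exists_succAbove_eq hij.symm
  let A' : Fin m → Set (E d) := fun l =>
    if l = j' then A i ∪ A (i.succAbove j') else A (i.succAbove l)
  have hdij : ∀ l, Disjoint (A i) (A (i.succAbove l)) := fun l =>
    hA.disj (Fin.succAbove_ne i l).symm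
  have hA' : IsPart A' := by
    refine ⟨?_, ?_, ?_⟩
    · intro l
      simp only [A']
      split_ifs
      · exact (hA.meas _).union (hA.meas _)
      · exact hA.meas _
    · intro a b hab
      have hne : i.succAbove a ≠ i.succAbove b := fun h => hab (Fin.succAbove_right_injective h)
      have hab' : Disjoint (A (i.succAbove a)) (A (i.succAbove b)) := hA.disj hne
      simp only [Function.onFun, A']
      split_ifs with h1 h2 h2
      · exact absurd (h1.trans h2.symm) hab
      · rw [Set.disjoint_union_left]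
        subst h1
        exact ⟨hdij b, hab'⟩
      · rw [Set.disjoint_union_right]
        subst h2
        exact ⟨(hdij a).symm, hab'⟩
      · exact hab'
    · ext x
      simp only [Set.mem_iUnion, Set.mem_univ, iff_true]
      have hx : x ∈ ⋃ a, A a := by rw [hA.cover]; trivial
      obtain ⟨a, ha⟩ := Set.mem_iUnion.mp hx
      by_cases hai : a = i
      · subst hai
        exact ⟨j', by simp [A', ha]⟩
      · obtain ⟨l, rfl⟩ := Fin.exists_succAbove_eq hai
        refine ⟨l, ?_⟩
        simp only [A']
        split_ifs with h1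
        · subst h1; exact Or.inr ha
        · exact ha
  have hbound := h d A' hA'
  have hu : mom (A i ∪ A (i.succAbove j')) = mom (A i) + mom (A (i.succAbove j')) :=
    setIntegral_union (hdij j') (hA.meas _) integrable_id_gam.integrableOn
      integrable_id_gam.integrableOn
  have hF : FF A = ‖mom (A i)‖ ^ 2 + ∑ l, ‖mom (A (i.succAbove l))‖ ^ 2 := by
    simp only [FF]
    exact Fin.sum_univ_succAbove _ i
  have hF' : FF A' = ∑ l, (‖mom (A (i.succAbove l))‖ ^ 2 +
      (if l = j' then ‖mom (A i) + mom (A (i.succAbove j'))‖ ^ 2 - ‖mom (A (i.succAbove j'))‖ ^ 2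
        else 0)) := by
    simp only [FF]
    refine Finset.sum_congr rfl fun l _ => ?_
    simp only [A']
    split_ifs with h1
    · subst h1; rw [hu]; ring
    · ring
  rw [Finset.sum_add_distrib, Finset.sum_ite_eq' Finset.univ j'] at hF'
  simp only [Finset.mem_univ, if_true] at hF'
  have hnorm : ‖mom (A i)‖ ^ 2 + ‖mom (A (i.succAbove j'))‖ ^ 2
      ≤ ‖mom (A i) + mom (A (i.succAbove j'))‖ ^ 2 := by
    rw [@norm_add_sq_real]
    nlinarith
  rw [hF]
  rw [hF'] at hbound
  linarith

theorem mx_succAbove_eq [NeZero n] (y : Fin (n + 1) → E d) (i : Fin (n + 1)) (x : E d) :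
    mx y x = max (inner ℝ x (y i)) (mx (fun l : Fin n => y (i.succAbove l)) x) := by
  apply le_antisymm
  · apply Finset.sup'_le
    intro a _
    by_cases hai : a = i
    · subst hai; exact le_max_left _ _
    · obtain ⟨l, rfl⟩ := Fin.exists_succAbove_eq hai
      exact le_max_of_le_right (inner_le_mx (fun l : Fin n => y (i.succAbove l)) x l)
  · apply max_le (inner_le_mx y x i)
    apply Finset.sup'_le
    intro l _
    exact inner_le_mx y x (i.succAbove l)

theorem mx_shift_del [NeZero n] (v : Fin n → E d) (z : E d) (s : ℝ) (x : E d) :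
    mx (fun l : Fin n => v l + s • z) x = mx v x + s * inner ℝ x z := by
  apply le_antisymm
  · apply Finset.sup'_le
    intro j _
    rw [inner_add_right, real_inner_smul_right]
    have := inner_le_mx v x j
    linarith
  · obtain ⟨j, hj⟩ := exists_eq_mx v x
    rw [← hj]
    have := inner_le_mx (fun l : Fin n => v l + s • z) x j
    rw [inner_add_right, real_inner_smul_right] at this
    exact this

theorem integrable_pos_part_del [NeZero n] (v : Fin n → E d) (z : E d) :
    Integrable (fun x => max 0 (inner ℝ x z - mx v x)) (gam d) := by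
  have h := (integrable_inner_gam z).sub (integrable_mx v)
  have h2 := h.pos_part
  refine h2.congr (Filter.Eventually.of_forall fun x => ?_)
  simp [max_comm, Pi.sub_apply]

/-- deletion of a vertex -/
theorem W_del [NeZero n] (y : Fin (n + 1) → E d) (i : Fin (n + 1)) :
    W y = W (fun l : Fin n => y (i.succAbove l) + (1 / (n : ℝ)) • y i)
      + Real.sqrt (2 * Real.pi) * ∫ x, max 0 (inner ℝ x (y i) - mx (fun l : Fin n => y (i.succAbove l)) x) ∂(gam d) := by
  unfold W
  rw [← mul_add]
  congr 1
  have h1 : ∀ x : E d, mx y x = mx (fun l : Fin n => y (i.succAbove l)) x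
      + max 0 (inner ℝ x (y i) - mx (fun l : Fin n => y (i.succAbove l)) x) := by
    intro x
    rw [mx_succAbove_eq y i]
    rcases le_total (inner ℝ x (y i) : ℝ) (mx (fun l : Fin n => y (i.succAbove l)) x) with h | h
    · rw [max_eq_right h, max_eq_left (by linarith)]
      ring
    · rw [max_eq_left h, max_eq_right (by linarith)]
      ring
  simp_rw [h1, mx_shift_del (fun l : Fin n => y (i.succAbove l)) (y i)]
  rw [integral_add (integrable_mx _) (integrable_pos_part_del _ _),
    integral_add (integrable_mx _) ((integrable_inner_gam (y i)).const_mul _),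
    integral_const_mul, integral_inner_gam]
  ring

theorem TT_del [NeZero n] (y : Fin (n + 1) → E d) (hy : ∑ j, y j = 0) (i : Fin (n + 1)) :
    TT (fun l : Fin n => y (i.succAbove l) + (1 / (n : ℝ)) • y i)
      = TT y - (((n : ℝ) + 1) / n) * ‖y i‖ ^ 2 := by
  have hn : (n : ℝ) ≠ 0 := by exact_mod_cast NeZero.ne n
  have hs : ∑ l : Fin n, y (i.succAbove l) = - y i := by
    rw [Fin.sum_univ_succAbove _ i] at hy
    exact eq_neg_of_add_eq_zero_right hy
  have h1 : ∀ l : Fin n, ‖y (i.succAbove l) + (1 / (n : ℝ)) • y i‖ ^ 2 =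
      ‖y (i.succAbove l)‖ ^ 2 + (2 / n) * inner ℝ (y (i.succAbove l)) (y i)
        + (1 / (n : ℝ) ^ 2) * ‖y i‖ ^ 2 := by
    intro l
    rw [@norm_add_sq_real, real_inner_smul_right, norm_smul, mul_pow]
    simp only [norm_div, norm_one, Real.norm_natCast, div_pow, one_pow]
    ring
  simp only [TT]
  simp_rw [h1]
  rw [Fin.sum_univ_succAbove (fun i => ‖y i‖ ^ 2) i, Finset.sum_add_distrib, Finset.sum_add_distrib,
    ← Finset.mul_sum, ← sum_inner, hs, inner_neg_left, real_inner_self_eq_norm_sq]
  simp only [Finset.sum_const, Finset.card_univ, Fintype.card_fin, nsmul_eq_mul]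
  field_simp
  ring

end Vale.Agent.Lib.P226
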