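import Vale.Agent.Lib.P226R.Defs

/-! Dual vector of a strictly obtuse centered family. -/

open MeasureTheory ProbabilityTheory

namespace Vale.Agent.Lib.P226

variable {d n : ℕ}

/-- a linearly independent family admits a vector with prescribed inner products equal to one -/
theorem exists_inner_eq_one_of_li {V : Type*} [NormedAddCommGroup V] [InnerProductSpace ℝ V]
    [FiniteDimensional ℝ V] {ι : Type*} (w : ι → V) (hw : LinearIndependent ℝ w) :
    ∃ u : V, ∀ l, (inner ℝ u (w l) : ℝ) = 1 := by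
  classical
  obtain ⟨g, hg⟩ := LinearMap.exists_extend
    ((Module.Basis.span hw).constr ℝ (fun _ => (1 : ℝ)))
  let L : StrongDual ℝ V := LinearMap.toContinuousLinearMap g
  refine ⟨(InnerProductSpace.toDual ℝ V).symm L, fun l => ?_⟩
  rw [InnerProductSpace.toDual_symm_apply]
  have h1 : g (w l) = (g.comp (Submodule.span ℝ (Set.range w)).subtype)
      ⟨w l, Submodule.subset_span ⟨l, rfl⟩⟩ := rfl
  have h2 : (⟨w l, Submodule.subset_span ⟨l, rfl⟩⟩ : Submodule.span ℝ (Set.range w))
      = Module.Basis.span hw l := by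
    apply Subtype.ext
    simp [Module.Basis.span_apply]
  change g (w l) = 1
  rw [h1, hg, h2, Module.Basis.constr_basis]

/-- Laplacian identity: if a centered family has negative inner products, only constant
coefficient vectors annihilate it. -/
theorem coef_const_of_sum_eq_zero {m : ℕ} (y : Fin m → E d) (hy : ∑ i, y i = 0)
    (hneg : ∀ i j, i ≠ j → (inner ℝ (y i) (y j) : ℝ) < 0) (a : Fin m → ℝ)
    (ha : ∑ i, a i • y i = 0) (i j : Fin m) : a i = a j := by
  classical
  by_contra hne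
  have hrow : ∀ i, ∑ j, (inner ℝ (y i) (y j) : ℝ) = 0 := by
    intro i
    rw [← inner_sum, hy, inner_zero_right]
  have hdiag : ∀ i, (inner ℝ (y i) (y i) : ℝ) = - ∑ j ∈ Finset.univ.erase i, (inner ℝ (y i) (y j) : ℝ) := by
    intro i
    have := hrow i
    rw [← Finset.add_sum_erase _ _ (Finset.mem_univ i)] at this
    linarith
  have h0 : (0 : ℝ) = ∑ p, ∑ q, a p * a q * (inner ℝ (y p) (y q) : ℝ) := by
    have : (inner ℝ (∑ i, a i • y i) (∑ i, a i • y i) : ℝ) = 0 := by rw [ha]; simp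
    rw [← this, sum_inner]
    refine Finset.sum_congr rfl fun p _ => ?_
    rw [inner_sum]
    refine Finset.sum_congr rfl fun q _ => ?_
    rw [real_inner_smul_left, real_inner_smul_right]; ring
  have h1 : ∑ p, ∑ q, a p * a q * (inner ℝ (y p) (y q) : ℝ)
      = - (1 / 2) * ∑ p, ∑ q, (a p - a q) ^ 2 * (inner ℝ (y p) (y q) : ℝ) := by
    have e1 : ∑ p, ∑ q, (a p) ^ 2 * (inner ℝ (y p) (y q) : ℝ) = 0 := by
      refine Finset.sum_eq_zero fun p _ => ?_
      rw [← Finset.mul_sum, hrow, mul_zero]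
    have e2 : ∑ p, ∑ q, (a q) ^ 2 * (inner ℝ (y p) (y q) : ℝ) = 0 := by
      rw [Finset.sum_comm]
      refine Finset.sum_eq_zero fun q _ => ?_
      have : ∀ p, (a q) ^ 2 * (inner ℝ (y p) (y q) : ℝ) = (a q) ^ 2 * inner ℝ (y q) (y p) := by
        intro p; rw [real_inner_comm]
      simp_rw [this]
      rw [← Finset.mul_sum, hrow, mul_zero]
    have e3 : ∑ p, ∑ q, (a p - a q) ^ 2 * (inner ℝ (y p) (y q) : ℝ)
        = ∑ p, ∑ q, (a p) ^ 2 * (inner ℝ (y p) (y q) : ℝ)
          + ∑ p, ∑ q, (a q) ^ 2 * (inner ℝ (y p) (y q) : ℝ)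
          - 2 * ∑ p, ∑ q, a p * a q * (inner ℝ (y p) (y q) : ℝ) := by
      rw [Finset.mul_sum, ← Finset.sum_add_distrib, ← Finset.sum_sub_distrib]
      refine Finset.sum_congr rfl fun p _ => ?_
      rw [Finset.mul_sum, ← Finset.sum_add_distrib, ← Finset.sum_sub_distrib]
      refine Finset.sum_congr rfl fun q _ => ?_
      ring
    rw [e3, e1, e2]; ring
  have h2 : ∑ p, ∑ q, (a p - a q) ^ 2 * (inner ℝ (y p) (y q) : ℝ) = 0 := by
    rw [h1] at h0; linarith
  have h3 : ∀ p q, (a p - a q) ^ 2 * (inner ℝ (y p) (y q) : ℝ) ≤ 0 := by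
    intro p q
    by_cases hpq : p = q
    · subst hpq; simp
    · exact mul_nonpos_of_nonneg_of_nonpos (sq_nonneg _) (hneg p q hpq).le
  have hij : i ≠ j := fun h => hne (h ▸ rfl)
  have h4 : (a i - a j) ^ 2 * (inner ℝ (y i) (y j) : ℝ) < 0 :=
    mul_neg_of_pos_of_neg (by
      have : a i - a j ≠ 0 := sub_ne_zero.mpr hne
      positivity) (hneg i j hij)
  have h5 : ∑ q, (a i - a q) ^ 2 * (inner ℝ (y i) (y q) : ℝ) < 0 := by
    refine lt_of_le_of_lt (Finset.single_le_sum (f := fun q => -((a i - a q) ^ 2 * (inner ℝ (y i) (y q) : ℝ)))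
      (fun q _ => by simpa using h3 i q) (Finset.mem_univ j) |> fun h => ?_) h4
    have : - ∑ q, (a i - a q) ^ 2 * (inner ℝ (y i) (y q) : ℝ)
        = ∑ q, -((a i - a q) ^ 2 * (inner ℝ (y i) (y q) : ℝ)) := by
      rw [Finset.sum_neg_distrib]
    have h' : (-((a i - a j) ^ 2 * (inner ℝ (y i) (y j) : ℝ)))
        ≤ - ∑ q, (a i - a q) ^ 2 * (inner ℝ (y i) (y q) : ℝ) := by rw [this]; exact h
    linarith
  have h6 : ∑ p, ∑ q, (a p - a q) ^ 2 * (inner ℝ (y p) (y q) : ℝ) < 0 := by
    have : ∑ p, ∑ q, (a p - a q) ^ 2 * (inner ℝ (y p) (y q) : ℝ)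
        ≤ ∑ q, (a i - a q) ^ 2 * (inner ℝ (y i) (y q) : ℝ) := by
      rw [← Finset.add_sum_erase _ _ (Finset.mem_univ i)]
      have : ∑ p ∈ Finset.univ.erase i, ∑ q, (a p - a q) ^ 2 * (inner ℝ (y p) (y q) : ℝ) ≤ 0 :=
        Finset.sum_nonpos fun p _ => Finset.sum_nonpos fun q _ => h3 p q
      linarith
    linarith
  linarith

/-- dual vector of a strictly obtuse centered family -/
theorem exists_dual (y0 : E d) (v : Fin n → E d) (hsum : y0 + ∑ l, v l = 0)
    (h0l : ∀ l, (inner ℝ y0 (v l) : ℝ) < 0)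
    (hvv : ∀ l m, l ≠ m → (inner ℝ (v l) (v m) : ℝ) < 0) :
    ∃ u : E d, ∀ l, (inner ℝ u (y0 - v l) : ℝ) = 1 := by
  classical
  apply exists_inner_eq_one_of_li
  rw [Fintype.linearIndependent_iff]
  intro c hc
  -- the family on `Fin (n+1)`
  let y : Fin (n + 1) → E d := Fin.cons y0 v
  have hy : ∑ i, y i = 0 := by
    rw [Fin.sum_univ_succ]
    simpa [y] using hsum
  have hneg : ∀ i j, i ≠ j → (inner ℝ (y i) (y j) : ℝ) < 0 := by
    intro i j hij
    induction i using Fin.cases with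
    | zero =>
      induction j using Fin.cases with
      | zero => exact absurd rfl hij
      | succ j' => simpa [y] using h0l j'
    | succ i' =>
      induction j using Fin.cases with
      | zero =>
        have := h0l i'
        rw [real_inner_comm] at this
        simpa [y] using this
      | succ j' =>
        have hne : i' ≠ j' := fun h => hij (by rw [h])
        simpa [y] using hvv i' j' hne
  let a : Fin (n + 1) → ℝ := Fin.cons (∑ l, c l) (fun l => - c l)
  have ha : ∑ i, a i • y i = 0 := by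
    rw [Fin.sum_univ_succ]
    simp only [a, y, Fin.cons_zero, Fin.cons_succ]
    rw [← hc]
    simp only [smul_sub, Finset.sum_sub_distrib, neg_smul, Finset.sum_neg_distrib, Finset.sum_smul]
    abel
  have hconst := coef_const_of_sum_eq_zero y hy hneg a ha
  have hsuma : ∑ i, a i = 0 := by
    rw [Fin.sum_univ_succ]
    simp [a]
  have hall : ∀ i, a i = 0 := by
    intro i
    have : ∑ j, a j = (n + 1 : ℕ) * a i := by
      rw [Finset.sum_congr rfl (fun j _ => hconst j i)]
      simp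
    rw [hsuma] at this
    have hn : ((n + 1 : ℕ) : ℝ) ≠ 0 := by positivity
    exact (mul_eq_zero.mp this.symm).resolve_left hn
  intro l
  have := hall l.succ
  simpa [a] using this

end Vale.Agent.Lib.P226
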