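import Vale.Agent.Lib.P226R.Defs

/-!
The tent bound for a vertex of a centered family with `n` other vertices, by log-concavity of the
Gaussian measure of the translates of the open cell, the Cameron-Martin shift and the layer cake.
-/

open MeasureTheory ProbabilityTheory Set Filter
open scoped ENNReal

namespace Vale.Agent.Lib.P226

variable {d n : ℕ}

theorem tentR_gam_eq_gm (d : ℕ) : gam d = Vale.Agent.Lib.P262.Ban.gm d := by
  ext S hS
  have h1 := cap_lintegral_density d (G := S.indicator 1) (measurable_one.indicator hS)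
  rw [lintegral_indicator_one hS] at h1
  rw [h1, Vale.Agent.Lib.P262.Ban.gm, withDensity_apply _ hS, ← lintegral_indicator hS]
  refine lintegral_congr fun v => ?_
  by_cases hv : v ∈ S
  · simp [hv, capDens, Vale.Agent.Lib.P262.Ban.dens, Vale.Agent.Lib.P262.Ban.cst]
  · simp [hv]

/-- The Cameron-Martin shift for the standard Gaussian. -/
theorem tentR_lintegral_shift (u : E d) (s : ℝ) {G : E d → ℝ≥0∞} (hG : Measurable G) :
    ∫⁻ x, G (x - s • u) ∂(gam d)
      = ∫⁻ x, G x * ENNReal.ofReal (Real.exp (-(s * inner ℝ x u) - s ^ 2 * ‖u‖ ^ 2 / 2)) ∂(gam d) := by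
  have hG1 : Measurable (fun x => G (x - s • u)) := hG.comp (measurable_id.sub_const _)
  have hE : Measurable (fun x : E d =>
      ENNReal.ofReal (Real.exp (-(s * inner ℝ x u) - s ^ 2 * ‖u‖ ^ 2 / 2))) := by
    refine ENNReal.measurable_ofReal.comp (Real.measurable_exp.comp ?_)
    exact (by fun_prop : Continuous fun x : E d => -(s * (inner ℝ x u : ℝ)) - s ^ 2 * ‖u‖ ^ 2 / 2).measurable
  have hGE : Measurable (fun x : E d => G x *
      ENNReal.ofReal (Real.exp (-(s * inner ℝ x u) - s ^ 2 * ‖u‖ ^ 2 / 2))) := hG.mul hE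
  rw [cap_lintegral_density d hG1, cap_lintegral_density d hGE]
  rw [← lintegral_add_right_eq_self (fun v => capDens d v * G (v - s • u)) (s • u)]
  refine lintegral_congr fun w => ?_
  simp only [add_sub_cancel_right]
  have hc : capDens d (w + s • u) = capDens d w *
      ENNReal.ofReal (Real.exp (-(s * inner ℝ w u) - s ^ 2 * ‖u‖ ^ 2 / 2)) := by
    unfold capDens
    rw [← ENNReal.ofReal_mul (by positivity)]
    congr 1
    rw [mul_assoc, ← Real.exp_add]
    congr 2
    rw [norm_add_sq_real, norm_smul, real_inner_smul_right, mul_pow, Real.norm_eq_abs, sq_abs]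
    ring
  rw [hc]
  ring

theorem tentR_meas_inner (u : E d) : Measurable (fun x : E d => (inner ℝ x u : ℝ)) :=
  (by fun_prop : Continuous fun x : E d => (inner ℝ x u : ℝ)).measurable

/-- exponential moments -/
theorem tentR_lintegral_exp_inner (u : E d) (t : ℝ) :
    ∫⁻ x, ENNReal.ofReal (Real.exp (t * inner ℝ x u)) ∂(gam d)
      = ENNReal.ofReal (Real.exp (t ^ 2 * ‖u‖ ^ 2 / 2)) := by
  have h := tentR_lintegral_shift (d := d) u (-t) (G := fun _ => 1) measurable_const
  simp only [lintegral_const, measure_univ, mul_one, one_mul] at h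
  have hfac : ∀ x : E d, ENNReal.ofReal (Real.exp (t * inner ℝ x u))
      = ENNReal.ofReal (Real.exp (t ^ 2 * ‖u‖ ^ 2 / 2)) *
        ENNReal.ofReal (Real.exp (-(-t * inner ℝ x u) - (-t) ^ 2 * ‖u‖ ^ 2 / 2)) := by
    intro x
    rw [← ENNReal.ofReal_mul (by positivity), ← Real.exp_add]
    congr 2
    ring
  simp_rw [hfac]
  rw [lintegral_const_mul' _ _ ENNReal.ofReal_ne_top, ← h, mul_one]

theorem tentR_integrable_exp_inner (u : E d) (t : ℝ) :
    Integrable (fun x : E d => Real.exp (t * inner ℝ x u)) (gam d) := by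
  refine ⟨(Real.measurable_exp.comp ((tentR_meas_inner u).const_mul t)).aestronglyMeasurable, ?_⟩
  rw [hasFiniteIntegral_iff_ofReal (Filter.Eventually.of_forall fun x => (Real.exp_pos _).le),
    tentR_lintegral_exp_inner]
  exact ENNReal.ofReal_lt_top

/-- elementary exponential bound -/
theorem tentR_exp_le_quad (x : ℝ) : Real.exp x ≤ 1 + x + x ^ 2 * Real.exp |x| := by
  rcases le_total 0 x with hx | hx
  · rw [abs_of_nonneg hx]
    by_cases h1 : 1 ≤ x
    · have : 0 < Real.exp x := Real.exp_pos x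
      nlinarith [mul_nonneg (sub_nonneg.2 h1) hx, mul_nonneg (mul_nonneg (sub_nonneg.2 h1) hx) this.le,
        mul_nonneg (sub_nonneg.2 h1) this.le]
    · push Not at h1
      have h2 := Real.add_one_le_exp (-x)
      have h3 : Real.exp x * Real.exp (-x) = 1 := by rw [← Real.exp_add]; simp
      have h4 : 0 < Real.exp x := Real.exp_pos x
      have h5 : Real.exp x * (1 - x) ≤ 1 := by
        calc Real.exp x * (1 - x) ≤ Real.exp x * Real.exp (-x) :=
              mul_le_mul_of_nonneg_left (by linarith) h4.le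
          _ = 1 := h3
      nlinarith [mul_nonneg hx (sub_nonneg.2 h5), mul_nonneg hx hx]
  · rw [abs_of_nonpos hx]
    have h4 : 0 < Real.exp (-x) := Real.exp_pos _
    have h5 := Real.add_one_le_exp (-x)
    have h6 : Real.exp x * Real.exp (-x) = 1 := by rw [← Real.exp_add]; simp
    have h7 : 1 ≤ Real.exp (-x) := by linarith
    have h8 : 0 < Real.exp x := Real.exp_pos x
    have h9 : 0 ≤ 1 + x + x ^ 2 := by nlinarith [sq_nonneg (x + 1 / 2)]
    have h10 : (1 + x + x ^ 2) * Real.exp (-x) ≥ 1 := by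
      have : (1 + x + x ^ 2) * (-x + 1) ≤ (1 + x + x ^ 2) * Real.exp (-x) :=
        mul_le_mul_of_nonneg_left h5 h9
      nlinarith [pow_nonneg (neg_nonneg.2 hx) 3]
    have h11 : Real.exp x ≤ 1 + x + x ^ 2 := by
      have : Real.exp x * Real.exp (-x) ≤ (1 + x + x ^ 2) * Real.exp (-x) := by rw [h6]; exact h10
      exact le_of_mul_le_mul_right this h4
    nlinarith [sq_nonneg x, mul_nonneg (sq_nonneg x) (sub_nonneg.2 h7)]

/-- bound for the integrand of the shift -/
theorem tentR_exp_shift_le {s a c : ℝ} (h0 : 0 ≤ s) (h1 : s ≤ 1) (hc : 0 ≤ c) :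
    Real.exp (-(s * a) - s ^ 2 * c / 2) ≤
      1 - s * a + 2 * s ^ 2 * (Real.exp (2 * a) + Real.exp (-2 * a)) := by
  have step1 : Real.exp (-(s * a) - s ^ 2 * c / 2) ≤ Real.exp (-(s * a)) := by
    apply Real.exp_le_exp.2
    nlinarith [mul_nonneg (sq_nonneg s) hc]
  have step2 := tentR_exp_le_quad (-(s * a))
  have hy : |(-(s * a))| ≤ |a| := by
    rw [abs_neg, abs_mul, abs_of_nonneg h0]
    nlinarith [abs_nonneg a]
  have step3 : Real.exp |(-(s * a))| ≤ Real.exp |a| := Real.exp_le_exp.2 hy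
  have step4 : a ^ 2 ≤ 2 * Real.exp |a| := by
    have := Real.quadratic_le_exp_of_nonneg (abs_nonneg a)
    have h2 : |a| ^ 2 = a ^ 2 := sq_abs a
    nlinarith [abs_nonneg a]
  have step5 : Real.exp |a| * Real.exp |a| ≤ Real.exp (2 * a) + Real.exp (-2 * a) := by
    rw [← Real.exp_add]
    rcases le_total 0 a with ha | ha
    · rw [abs_of_nonneg ha]
      have : a + a = 2 * a := by ring
      rw [this]
      linarith [Real.exp_pos (-2 * a)]
    · rw [abs_of_nonpos ha]
      have : -a + -a = -2 * a := by ring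
      rw [this]
      linarith [Real.exp_pos (2 * a)]
  have hE := Real.exp_pos |a|
  have step6 : (-(s * a)) ^ 2 * Real.exp |(-(s * a))| ≤
      2 * s ^ 2 * (Real.exp (2 * a) + Real.exp (-2 * a)) := by
    have e1 : (-(s * a)) ^ 2 = s ^ 2 * a ^ 2 := by ring
    rw [e1]
    have h5 : a ^ 2 * Real.exp |(-(s * a))| ≤ 2 * (Real.exp |a| * Real.exp |a|) := by
      calc a ^ 2 * Real.exp |(-(s * a))| ≤ (2 * Real.exp |a|) * Real.exp |a| :=
            mul_le_mul step4 step3 (Real.exp_pos _).le (by positivity)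
        _ = 2 * (Real.exp |a| * Real.exp |a|) := by ring
    have h6 : s ^ 2 * (a ^ 2 * Real.exp |(-(s * a))|) ≤ s ^ 2 * (2 * (Real.exp (2 * a) + Real.exp (-2 * a))) :=
      mul_le_mul_of_nonneg_left (by linarith) (sq_nonneg s)
    nlinarith
  linarith

/-- passing to the limit in the log-concavity inequality -/
theorem tentR_real {p q D M τ : ℝ} (hp : 0 < p) (hq : 0 ≤ q) (hτ : 0 ≤ τ) (hM : 0 ≤ M)
    (h : ∀ θ : ℝ, 0 < θ → θ < 1 → θ * τ ≤ 1 →
      q ^ θ * p ^ (1 - θ) ≤ p - θ * τ * D + 2 * (θ * τ) ^ 2 * M) :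
    q ≤ p * Real.exp (-(τ * D) / p) := by
  rcases hq.eq_or_lt with rfl | hq
  · positivity
  set a := Real.log (q / p) with ha
  have hqp : q = p * Real.exp a := by
    rw [ha, Real.exp_log (div_pos hq hp)]
    field_simp
  have key : ∀ θ : ℝ, 0 < θ → θ < 1 → θ * τ ≤ 1 → p * a ≤ -(τ * D) + 2 * θ * τ ^ 2 * M := by
    intro θ h0 h1 h2
    have h3 := h θ h0 h1 h2
    have e1 : q ^ θ * p ^ (1 - θ) = p * Real.exp (θ * a) := by
      rw [hqp, Real.mul_rpow hp.le (Real.exp_pos _).le, ← Real.exp_mul, Real.rpow_sub hp, Real.rpow_one]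
      have : 0 < p ^ θ := Real.rpow_pos_of_pos hp θ
      rw [mul_comm a θ]
      field_simp
    rw [e1] at h3
    have h4 : 1 + θ * a ≤ Real.exp (θ * a) := by linarith [Real.add_one_le_exp (θ * a)]
    have h5 : p * (1 + θ * a) ≤ p - θ * τ * D + 2 * (θ * τ) ^ 2 * M :=
      (mul_le_mul_of_nonneg_left h4 hp.le).trans h3
    have h6 : θ * (p * a) ≤ θ * (-(τ * D) + 2 * θ * τ ^ 2 * M) := by nlinarith
    exact le_of_mul_le_mul_left h6 h0
  have lim : p * a ≤ -(τ * D) := by
    refine le_of_forall_pos_le_add fun ε hε => ?_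
    set B := 2 * τ ^ 2 * M with hB
    have hB0 : 0 ≤ B := by positivity
    set θ := min (1 / 2) (min (1 / (1 + τ)) (ε / (1 + B))) with hθ
    have hθ0 : 0 < θ := by
      rw [hθ]
      refine lt_min (by norm_num) (lt_min (by positivity) (by positivity))
    have hθ1 : θ < 1 := lt_of_le_of_lt (min_le_left _ _) (by norm_num)
    have hθ2 : θ ≤ 1 / (1 + τ) := (min_le_right _ _).trans (min_le_left _ _)
    have hθ3 : θ ≤ ε / (1 + B) := (min_le_right _ _).trans (min_le_right _ _)
    have h2 : θ * τ ≤ 1 := by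
      have : θ * (1 + τ) ≤ 1 := by
        rw [le_div_iff₀ (by positivity)] at hθ2
        exact hθ2
      nlinarith
    have h3 : θ * B ≤ ε := by
      have : θ * (1 + B) ≤ ε := by
        rw [le_div_iff₀ (by positivity)] at hθ3
        exact hθ3
      nlinarith
    have h4 := key θ hθ0 hθ1 h2
    have e : 2 * θ * τ ^ 2 * M = θ * B := by rw [hB]; ring
    rw [e] at h4
    linarith
  have h7 : a ≤ -(τ * D) / p := by
    rw [le_div_iff₀ hp]
    linarith
  rw [hqp]
  exact mul_le_mul_of_nonneg_left (Real.exp_le_exp.2 h7) hp.le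

section Main

variable (y0 u : E d) (v : Fin n → E d)

theorem tentR_meas_cellO : MeasurableSet (cellO y0 v) := by
  have : cellO y0 v = ⋂ l, {x : E d | inner ℝ x (v l) < (inner ℝ x y0 : ℝ)} := by
    ext x; simp [cellO]
  rw [this]
  exact MeasurableSet.iInter fun l =>
    measurableSet_lt (tentR_meas_inner _) (tentR_meas_inner _)

/-- translate of the open cell. -/
def tentRshift (τ : ℝ) : Set (E d) := {x | x - τ • u ∈ cellO y0 v}

theorem tentR_meas_shiftO (τ : ℝ) : MeasurableSet (tentRshift y0 u v τ) :=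
  (measurable_id.sub_const _) (tentR_meas_cellO y0 v)

variable {y0 u v}

theorem tentR_shiftO_mem (h1 : ∀ l, (inner ℝ u (y0 - v l) : ℝ) = 1) (τ : ℝ) (x : E d) :
    x ∈ tentRshift y0 u v τ ↔ ∀ l, τ < inner ℝ x y0 - inner ℝ x (v l) := by
  unfold tentRshift cellO
  simp only [mem_ofPred_eq]
  refine forall_congr' fun l => ?_
  have h := h1 l
  rw [inner_sub_right] at h
  have h' : τ * (inner ℝ u y0 : ℝ) - τ * inner ℝ u (v l) = τ := by rw [← mul_sub, h, mul_one]
  rw [inner_sub_left, inner_sub_left, real_inner_smul_left, real_inner_smul_left]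
  constructor <;> intro hlt <;> linarith

theorem tentR_set [NeZero n] (h1 : ∀ l, (inner ℝ u (y0 - v l) : ℝ) = 1) (τ : ℝ) (x : E d) :
    τ < inner ℝ x y0 - mx v x ↔ x ∈ tentRshift y0 u v τ := by
  rw [tentR_shiftO_mem h1]
  have : τ < inner ℝ x y0 - mx v x ↔ mx v x < inner ℝ x y0 - τ := by
    constructor <;> intro h <;> linarith
  rw [this, mx, Finset.sup'_lt_iff]
  simp only [Finset.mem_univ, true_implies]
  refine forall_congr' fun l => ?_
  constructor <;> intro h <;> linarith

theorem tentR_logconc (τ : ℝ) {θ : ℝ} (h0 : 0 < θ) (h1 : θ < 1) :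
    (gam d).real (tentRshift y0 u v τ) ^ θ * (gam d).real (cellO y0 v) ^ (1 - θ)
      ≤ (gam d).real (tentRshift y0 u v (θ * τ)) := by
  have hlc := Vale.Agent.Lib.P262.Ban.gm_logConcave d θ h0 h1 (tentRshift y0 u v τ) (cellO y0 v)
    (tentRshift y0 u v (θ * τ)) (tentR_meas_shiftO y0 u v τ) (tentR_meas_cellO y0 v)
    (tentR_meas_shiftO y0 u v _) ?_
  · rw [← tentR_gam_eq_gm] at hlc
    have hb : (gam d) (tentRshift y0 u v (θ * τ)) ≠ ⊤ := measure_ne_top _ _
    have := ENNReal.toReal_mono hb hlc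
    rw [ENNReal.toReal_mul, ← ENNReal.toReal_rpow, ← ENNReal.toReal_rpow] at this
    exact this
  · intro x hx y hy l
    have hx' := hx l
    have hy' := hy l
    have hθ' : 0 < 1 - θ := by linarith
    have e : θ • x + (1 - θ) • y - (θ * τ) • u = θ • (x - τ • u) + (1 - θ) • y := by
      rw [smul_sub, smul_smul]
      abel
    rw [e]
    simp only [inner_add_left, real_inner_smul_left]
    have a1 := mul_lt_mul_of_pos_left hx' h0
    have a2 := mul_lt_mul_of_pos_left hy' hθ'
    linarith

/-- shift formula for the measure of the translate -/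
theorem tentR_shift_eq (τ : ℝ) :
    (gam d).real (tentRshift y0 u v τ) =
      ∫ x in cellO y0 v, Real.exp (-(τ * inner ℝ x u) - τ ^ 2 * ‖u‖ ^ 2 / 2) ∂(gam d) := by
  have hA := tentR_meas_cellO y0 v
  have hS := tentR_meas_shiftO y0 u v τ
  have h := tentR_lintegral_shift (d := d) u τ (G := (cellO y0 v).indicator 1) (measurable_one.indicator hA)
  have hl : ∫⁻ x, (cellO y0 v).indicator 1 (x - τ • u) ∂(gam d) = gam d (tentRshift y0 u v τ) := by
    rw [← lintegral_indicator_one hS]
    refine lintegral_congr fun x => ?_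
    by_cases hx : x - τ • u ∈ cellO y0 v
    · have hx2 : x ∈ tentRshift y0 u v τ := hx
      simp [hx, hx2]
    · have hx2 : x ∉ tentRshift y0 u v τ := hx
      simp [hx, hx2]
  rw [hl] at h
  have hr : ∫⁻ x, (cellO y0 v).indicator 1 x *
        ENNReal.ofReal (Real.exp (-(τ * inner ℝ x u) - τ ^ 2 * ‖u‖ ^ 2 / 2)) ∂(gam d)
      = ∫⁻ x in cellO y0 v, ENNReal.ofReal (Real.exp (-(τ * inner ℝ x u) - τ ^ 2 * ‖u‖ ^ 2 / 2)) ∂(gam d) := by
    rw [← lintegral_indicator hA]
    refine lintegral_congr fun x => ?_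
    by_cases hx : x ∈ cellO y0 v <;> simp [hx]
  rw [hr] at h
  rw [measureReal_def, h, integral_eq_lintegral_of_nonneg_ae
    (Filter.Eventually.of_forall fun x => (Real.exp_pos _).le)
    ((by fun_prop : Continuous fun x : E d =>
      Real.exp (-(τ * inner ℝ x u) - τ ^ 2 * ‖u‖ ^ 2 / 2)).aestronglyMeasurable)]

/-- second order bound for the measure of a small translate -/
theorem tentR_shift_le {s : ℝ} (h0 : 0 ≤ s) (h1 : s ≤ 1) :
    (gam d).real (tentRshift y0 u v s) ≤ (gam d).real (cellO y0 v) - s * inner ℝ (mom (cellO y0 v)) u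
      + 2 * s ^ 2 * ∫ x, (Real.exp (2 * inner ℝ x u) + Real.exp (-2 * inner ℝ x u)) ∂(gam d) := by
  have hA := tentR_meas_cellO y0 v
  rw [tentR_shift_eq]
  have hi1 : Integrable (fun x : E d => (inner ℝ x u : ℝ)) (gam d) := integrable_inner_gam u
  have hi2 : Integrable (fun x : E d => Real.exp (2 * inner ℝ x u) + Real.exp (-2 * inner ℝ x u)) (gam d) :=
    (tentR_integrable_exp_inner u 2).add (tentR_integrable_exp_inner u (-2))
  have hic : Integrable (fun x : E d => Real.exp (-(s * inner ℝ x u) - s ^ 2 * ‖u‖ ^ 2 / 2)) (gam d) := by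
    have := (tentR_integrable_exp_inner u (-s)).mul_const (Real.exp (-(s ^ 2 * ‖u‖ ^ 2 / 2)))
    refine this.congr (Filter.Eventually.of_forall fun x => ?_)
    simp only
    rw [← Real.exp_add]
    congr 1
    ring
  have hmono : ∫ x in cellO y0 v, Real.exp (-(s * inner ℝ x u) - s ^ 2 * ‖u‖ ^ 2 / 2) ∂(gam d) ≤
      ∫ x in cellO y0 v, (1 - s * inner ℝ x u +
        2 * s ^ 2 * (Real.exp (2 * inner ℝ x u) + Real.exp (-2 * inner ℝ x u))) ∂(gam d) := by
    refine setIntegral_mono_on hic.integrableOn ?_ hA fun x _ => tentR_exp_shift_le h0 h1 (sq_nonneg _)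
    exact (((integrable_const (1:ℝ)).sub (hi1.const_mul s)).add (hi2.const_mul _)).integrableOn
  refine hmono.trans ?_
  have e1 : ∫ x in cellO y0 v, (1 - s * inner ℝ x u +
        2 * s ^ 2 * (Real.exp (2 * inner ℝ x u) + Real.exp (-2 * inner ℝ x u))) ∂(gam d)
      = (gam d).real (cellO y0 v) - s * ∫ x in cellO y0 v, inner ℝ x u ∂(gam d) +
        2 * s ^ 2 * ∫ x in cellO y0 v, (Real.exp (2 * inner ℝ x u) + Real.exp (-2 * inner ℝ x u)) ∂(gam d) := by
    rw [integral_add, integral_sub, integral_const_mul, integral_const_mul, setIntegral_const]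
    · simp
    · exact (integrable_const (1:ℝ)).integrableOn
    · exact (hi1.const_mul s).integrableOn
    · exact ((integrable_const (1:ℝ)).sub (hi1.const_mul s)).integrableOn
    · exact (hi2.const_mul _).integrableOn
  rw [e1, inner_mom]
  have hle : ∫ x in cellO y0 v, (Real.exp (2 * inner ℝ x u) + Real.exp (-2 * inner ℝ x u)) ∂(gam d) ≤
      ∫ x, (Real.exp (2 * inner ℝ x u) + Real.exp (-2 * inner ℝ x u)) ∂(gam d) :=
    setIntegral_le_integral hi2 (Filter.Eventually.of_forall fun x => by positivity)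
  have := mul_le_mul_of_nonneg_left hle (by positivity : 0 ≤ 2 * s ^ 2)
  linarith

end Main

/-- The tent bound. -/
theorem tent_boundR [NeZero n] (y0 u : E d) (v : Fin n → E d)
    (hsum : y0 + ∑ l, v l = 0) (h1 : ∀ l, (inner ℝ u (y0 - v l) : ℝ) = 1)
    (hmom : Real.sqrt (2 * Real.pi) • mom (cellO y0 v) = y0) :
    Real.sqrt (2 * Real.pi) * ∫ x, max 0 (inner ℝ x y0 - mx v x) ∂(gam d)
      ≤ (((n : ℝ) + 1) / n) * (2 * Real.pi * ((gam d).real (cellO y0 v)) ^ 2) := by
  have hn : (0:ℝ) < n := by exact_mod_cast Nat.pos_of_ne_zero (NeZero.ne n)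
  set A := cellO y0 v with hAdef
  set p := (gam d).real A with hp
  have hs2 : 0 < Real.sqrt (2 * Real.pi) := Real.sqrt_pos.2 (by positivity)
  -- the pairing of `u` and `y0`
  have huy : (inner ℝ u y0 : ℝ) * ((n : ℝ) + 1) = n := by
    have hsumv : ∑ l, v l = - y0 := by
      rw [eq_neg_iff_add_eq_zero, add_comm]; exact hsum
    have : ∑ l : Fin n, (inner ℝ u (y0 - v l) : ℝ) = n := by simp [h1]
    simp only [inner_sub_right, Finset.sum_sub_distrib, Finset.sum_const, Finset.card_univ,
      Fintype.card_fin, nsmul_eq_mul] at this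
    rw [← inner_sum, hsumv, inner_neg_right] at this
    linarith
  set D : ℝ := inner ℝ (mom A) u with hD
  have hDval : Real.sqrt (2 * Real.pi) * D * ((n : ℝ) + 1) = n := by
    have : (inner ℝ y0 u : ℝ) = Real.sqrt (2 * Real.pi) * D := by
      rw [hD, ← real_inner_smul_left, hmom]
    rw [← this, real_inner_comm]
    exact huy
  have hDpos : 0 < D := by
    by_contra hcon
    push Not at hcon
    have : Real.sqrt (2 * Real.pi) * D * ((n : ℝ) + 1) ≤ 0 :=
      mul_nonpos_of_nonpos_of_nonneg (mul_nonpos_of_nonneg_of_nonpos hs2.le hcon) (by positivity)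
    linarith
  have hppos : 0 < p := by
    rcases (measureReal_nonneg (μ := gam d) (s := A)).eq_or_lt with h | h
    · exfalso
      have hnull : gam d A = 0 := by
        have h' : (gam d A).toReal = 0 := h.symm
        rcases (ENNReal.toReal_eq_zero_iff _).1 h' with h2 | h2
        · exact h2
        · exact absurd h2 (measure_ne_top _ _)
      have hm0 : mom A = 0 := by
        rw [mom, Measure.restrict_eq_zero.2 hnull, integral_zero_measure]
      rw [hD, hm0, inner_zero_left] at hDpos
      exact lt_irrefl _ hDpos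
    · exact h
  set M : ℝ := ∫ x, (Real.exp (2 * inner ℝ x u) + Real.exp (-2 * inner ℝ x u)) ∂(gam d) with hM
  have hM0 : 0 ≤ M := integral_nonneg fun x => by positivity
  -- the key decay
  have decay : ∀ τ : ℝ, 0 ≤ τ → (gam d).real (tentRshift y0 u v τ) ≤ p * Real.exp (-(τ * D) / p) := by
    intro τ hτ
    refine tentR_real hppos measureReal_nonneg hτ hM0 fun θ h0 h1' h2 => ?_
    have ha := tentR_logconc (y0 := y0) (u := u) (v := v) τ h0 h1'
    have hb := tentR_shift_le (y0 := y0) (u := u) (v := v) (s := θ * τ) (by positivity) h2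
    calc _ ≤ (gam d).real (tentRshift y0 u v (θ * τ)) := ha
      _ ≤ _ := by
        refine hb.trans (le_of_eq ?_)
        rw [← hM, ← hAdef, ← hD, ← hp]
  -- the layer cake
  set F : E d → ℝ := fun x => max 0 (inner ℝ x y0 - mx v x) with hF
  have hFc : Continuous F := by
    refine continuous_const.max ?_
    exact (by fun_prop : Continuous fun x : E d => (inner ℝ x y0 : ℝ)).sub (continuous_mx v)
  have hF0 : 0 ≤ᵐ[gam d] F := Filter.Eventually.of_forall fun x => le_max_left _ _
  have hlay := lintegral_eq_lintegral_meas_lt (gam d) hF0 hFc.aemeasurable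
  have hb : 0 < D / p := div_pos hDpos hppos
  have hle : ∫⁻ t in Ioi (0:ℝ), gam d {a | t < F a} ≤
      ∫⁻ t in Ioi (0:ℝ), ENNReal.ofReal (p * Real.exp (-(D / p) * t)) := by
    refine setLIntegral_mono' measurableSet_Ioi fun t ht => ?_
    have ht' : (0:ℝ) < t := ht
    have hset : {a | t < F a} = tentRshift y0 u v t := by
      ext x
      simp only [mem_ofPred_eq, hF, lt_max_iff]
      rw [← tentR_set h1]
      constructor
      · rintro (h | h)
        · exact absurd h (not_lt.2 ht'.le)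
        · exact h
      · exact fun h => Or.inr h
    rw [hset]
    have h2 := decay t ht'.le
    rw [← ofReal_measureReal]
    refine ENNReal.ofReal_le_ofReal (h2.trans (le_of_eq ?_))
    congr 2
    field_simp
  have hint : IntegrableOn (fun t : ℝ => p * Real.exp (-(D / p) * t)) (Ioi 0) :=
    (exp_neg_integrableOn_Ioi 0 hb).const_mul p
  have hval : ∫⁻ t in Ioi (0:ℝ), ENNReal.ofReal (p * Real.exp (-(D / p) * t)) =
      ENNReal.ofReal (p * (p / D)) := by
    rw [← ofReal_integral_eq_lintegral_ofReal hint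
      (Filter.Eventually.of_forall fun t => by positivity)]
    congr 1
    rw [integral_const_mul, integral_exp_mul_Ioi (neg_lt_zero.2 hb)]
    simp only [mul_zero, Real.exp_zero]
    field_simp
  have hfin : ∫ x, F x ∂(gam d) ≤ p * (p / D) := by
    rw [integral_eq_lintegral_of_nonneg_ae hF0 hFc.aestronglyMeasurable, hlay]
    exact ENNReal.toReal_le_of_le_ofReal (by positivity) (hle.trans (le_of_eq hval))
  have hfinal : Real.sqrt (2 * Real.pi) * (p * (p / D)) = (((n : ℝ) + 1) / n) * (2 * Real.pi * p ^ 2) := by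
    have hsq : Real.sqrt (2 * Real.pi) ^ 2 = 2 * Real.pi := Real.sq_sqrt (by positivity)
    generalize Real.sqrt (2 * Real.pi) = s at hsq hDval hs2
    rw [← hsq, div_mul_eq_mul_div, eq_div_iff hn.ne']
    have e : s * (p * (p / D)) * (n : ℝ) = s * (p * (p / D)) * (s * D * ((n : ℝ) + 1)) := by rw [hDval]
    rw [e]
    field_simp
  calc Real.sqrt (2 * Real.pi) * ∫ x, F x ∂(gam d)
      ≤ Real.sqrt (2 * Real.pi) * (p * (p / D)) := mul_le_mul_of_nonneg_left hfin hs2.le
    _ = _ := hfinal

end Vale.Agent.Lib.P226
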