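import Vale.Agent.Lib.P226R.KLa
import Vale.Agent.Lib.P226R.Bdry
import Vale.Agent.Lib.P226R.TentR
import Vale.Agent.Lib.P226R.Dual
import Vale.Agent.Lib.P226R.Width
import Vale.Agent.Lib.P226R.Fixed

/-! Assembly of the all-k reduction. -/

open MeasureTheory ProbabilityTheory

namespace Vale.Agent.Lib.P226

variable {d n : ℕ}

/-- elementary inequality for the square root -/
theorem sqrt_sub_le {K b : ℝ} (hK : 0 < K) (hb : b ≤ K ^ 2) (hb0 : 0 ≤ b) :
    K * Real.sqrt (K ^ 2 - b) ≤ K ^ 2 - b / 2 := by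
  have h := Real.sqrt_nonneg (K ^ 2 - b)
  have h2 := Real.sq_sqrt (show 0 ≤ K ^ 2 - b by linarith)
  nlinarith [sq_nonneg (K - Real.sqrt (K ^ 2 - b))]

/-- the trivial partition shows that the constant is nonnegative -/
theorem PBc_nonneg {c : ℝ} {k : ℕ} (hk : 0 < k) (h : PBc k c) : 0 ≤ c := by
  classical
  let A : Fin k → Set (E 0) := fun i => if i = ⟨0, hk⟩ then Set.univ else ∅
  have hA : IsPart A := by
    refine ⟨fun i => ?_, ?_, ?_⟩
    · simp only [A]; split_ifs <;> simp
    · intro i j hij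
      simp only [Function.onFun, A]
      split_ifs with h1 h2 h2
      · exact absurd (h1.trans h2.symm) hij
      · simp
      · simp
      · simp
    · apply Set.eq_univ_of_forall
      intro x
      exact Set.mem_iUnion.mpr ⟨⟨0, hk⟩, by simp [A]⟩
  have h1 := h 0 A hA
  refine le_trans ?_ h1
  exact Finset.sum_nonneg (fun i _ => by positivity)

/-- moment of a set squeezed between the open and the closed cell -/
theorem ae_eq_cell {B : Set (E d)} {y0 : E d} {v : Fin n → E d} (h : ∀ l, v l ≠ y0)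
    (h1 : cellO y0 v ⊆ B) (h2 : B ⊆ cellC y0 v) : B =ᵐ[gam d] cellO y0 v := by
  have h3 := cell_ae_eq y0 v h
  have h1' : cellO y0 v ≤ᵐ[gam d] B := Filter.Eventually.of_forall h1
  have h2' : B ≤ᵐ[gam d] cellC y0 v := Filter.Eventually.of_forall h2
  exact Filter.EventuallyLE.antisymm (h2'.trans h3.le) h1'

/-- The inductive step. -/
theorem step_PBc {c : ℝ} (hn : 40 ≤ n) (h : PBc n c) : PBc (n + 1) c := by
  intro d A hA
  by_contra hcon
  push Not at hcon
  haveI : NeZero n := ⟨by omega⟩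
  have hc0 : 0 ≤ c := PBc_nonneg (by omega) h
  have hpi : 0 < Real.pi := Real.pi_pos
  have h2pi : 0 < 2 * Real.pi := by positivity
  have hs2pi : 0 < Real.sqrt (2 * Real.pi) := Real.sqrt_pos.mpr h2pi
  have hnpos : (0 : ℝ) < n := by
    have : (40 : ℝ) ≤ n := by exact_mod_cast hn
    linarith
  -- the starting family
  set y0 : Fin (n + 1) → E d := fun i => nz (A i) with hy0
  have hs0 : ∑ i, y0 i = 0 := sum_nz_eq_zero hA
  have hT0 : TT y0 = 2 * Real.pi * FF A := TT_nz_eq A
  have hTpos : 2 * Real.pi * c < TT y0 := by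
    rw [hT0]; exact mul_lt_mul_of_pos_left hcon h2pi
  have hTpos' : 0 < TT y0 := lt_of_le_of_lt (by positivity) hTpos
  have hW0 : TT y0 ≤ W y0 := by
    have := sum_inner_nz_le_W hA y0
    refine le_trans (le_of_eq ?_) this
    simp [TT, hy0]
  obtain ⟨K, y, B, hK, hsy, hW0K, hTy, hWy, hB, hnz, hO, hC⟩ := exists_fixed y0 hs0 hTpos'
  -- the extremal constant is large
  have hKT : Real.sqrt (TT y0) ≤ K := by
    have h1 : Real.sqrt (TT y0) * Real.sqrt (TT y0) ≤ K * Real.sqrt (TT y0) := by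
      rw [Real.mul_self_sqrt hTpos'.le]; exact hW0.trans hW0K
    exact le_of_mul_le_mul_right h1 (Real.sqrt_pos.mpr hTpos')
  have hKc : Real.sqrt (2 * Real.pi * c) < K :=
    lt_of_lt_of_le (Real.sqrt_lt_sqrt (by positivity) hTpos) hKT
  have hTB : TT y = 2 * Real.pi * FF B := by
    have : y = fun i => nz (B i) := by ext1 i; exact (hnz i).symm
    rw [this]; exact TT_nz_eq B
  have hFB : c < FF B := by
    have h1 : 2 * Real.pi * c < 2 * Real.pi * FF B := by
      rw [← hTB, hTy]
      have h2 := Real.sqrt_nonneg (2 * Real.pi * c)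
      have h3 := Real.sq_sqrt (show 0 ≤ 2 * Real.pi * c by positivity)
      nlinarith
    exact lt_of_mul_lt_mul_left h1 h2pi.le
  -- strictly obtuse
  have hobt : ∀ i j, i ≠ j → (inner ℝ (y i) (y j) : ℝ) < 0 := by
    intro i j hij
    by_contra hne
    push Not at hne
    have hin : 0 ≤ (inner ℝ (mom (B i)) (mom (B j)) : ℝ) := by
      rw [← hnz i, ← hnz j, nz, nz, real_inner_smul_left, real_inner_smul_right] at hne
      have h5 := Real.mul_self_sqrt h2pi.le
      by_contra hlt
      push Not at hlt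
      have h6 : Real.sqrt (2 * Real.pi) * (Real.sqrt (2 * Real.pi) * (inner ℝ (mom (B i)) (mom (B j)) : ℝ)) < 0 := by
        have := mul_neg_of_pos_of_neg hs2pi hlt
        exact mul_neg_of_pos_of_neg hs2pi this
      linarith
    exact absurd (merge_PBc h hB hij hin) (not_le.mpr hFB)
  -- the smallest vertex
  obtain ⟨i0, hi0⟩ : ∃ i0, ∀ j, ‖y i0‖ ≤ ‖y j‖ := by
    obtain ⟨i0, hi0⟩ := Finite.exists_min (fun j => ‖y j‖)
    exact ⟨i0, hi0⟩
  set z : E d := y i0 with hz
  set v : Fin n → E d := fun l => y (i0.succAbove l) with hv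
  have hsum : z + ∑ l, v l = 0 := by
    rw [← hsy, Fin.sum_univ_succAbove y i0]
  have hzv : ∀ l, (inner ℝ z (v l) : ℝ) < 0 := fun l =>
    hobt i0 _ (Fin.succAbove_ne i0 l).symm
  have hvv : ∀ l m, l ≠ m → (inner ℝ (v l) (v m) : ℝ) < 0 := fun l m hlm =>
    hobt _ _ (fun e => hlm (Fin.succAbove_right_injective e))
  have hne : z ≠ 0 := by
    intro h0
    have := hzv ⟨0, by omega⟩
    rw [h0] at this
    simp at this
  have hrpos : 0 < ‖z‖ := norm_pos_iff.mpr hne
  have hvne : ∀ l, v l ≠ z := by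
    intro l he
    have := hzv l
    rw [he, real_inner_self_eq_norm_sq] at this
    nlinarith
  -- the cell of the vertex
  have hBO : cellO z v ⊆ B i0 := by
    intro x hx
    apply hO
    intro j hj
    obtain ⟨l, rfl⟩ := Fin.exists_succAbove_eq hj
    exact hx l
  have hBC : B i0 ⊆ cellC z v := fun x hx l => hC i0 x hx _
  have hBae : B i0 =ᵐ[gam d] cellO z v := ae_eq_cell hvne hBO hBC
  have hCae : cellC z v =ᵐ[gam d] cellO z v := cell_ae_eq z v hvne
  have hmomO : mom (cellO z v) = mom (B i0) := by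
    unfold mom
    exact setIntegral_congr_set hBae.symm
  have hmom : Real.sqrt (2 * Real.pi) • mom (cellO z v) = z := by
    rw [hmomO]; exact hnz i0
  set p : ℝ := (gam d).real (cellO z v) with hp
  have hp0 : 0 ≤ p := measureReal_nonneg
  have hpC : (gam d).real (cellC z v) = p := measureReal_congr hCae
  -- the KL inequality
  have hKL := KL hn z v hne hsum (fun l => (hzv l).le) (fun l m hlm => (hvv l m hlm).le)
    (fun l => hi0 _)
  rw [hpC] at hKL
  have hIO : ∫ x in cellC z v, (inner ℝ x z : ℝ) ∂(gam d) = ∫ x in cellO z v, (inner ℝ x z : ℝ) ∂(gam d) :=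
    setIntegral_congr_set hCae
  rw [hIO] at hKL
  have hRz : ‖z‖ ^ 2 = Real.sqrt (2 * Real.pi) * ∫ x in cellO z v, (inner ℝ x z : ℝ) ∂(gam d) := by
    have h1 : (inner ℝ (Real.sqrt (2 * Real.pi) • mom (cellO z v)) z : ℝ) = ‖z‖ ^ 2 := by
      rw [hmom, real_inner_self_eq_norm_sq]
    rw [← h1, real_inner_smul_left, inner_mom]
  have hlow : 2 * Real.sqrt Real.pi * p ≤ ‖z‖ := by
    have h1 : Real.sqrt (2 * Real.pi) * (Real.sqrt 2 * ‖z‖ * p) ≤ ‖z‖ ^ 2 := by
      rw [hRz]
      exact mul_le_mul_of_nonneg_left hKL hs2pi.le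
    have h2 : Real.sqrt (2 * Real.pi) * Real.sqrt 2 = 2 * Real.sqrt Real.pi := by
      rw [Real.sqrt_mul (by norm_num), mul_assoc, mul_comm (Real.sqrt Real.pi), ← mul_assoc,
        Real.mul_self_sqrt (by norm_num)]
    have h3 : (2 * Real.sqrt Real.pi * p) * ‖z‖ ≤ ‖z‖ * ‖z‖ := by
      calc (2 * Real.sqrt Real.pi * p) * ‖z‖
          = Real.sqrt (2 * Real.pi) * (Real.sqrt 2 * ‖z‖ * p) := by rw [← h2]; ring
        _ ≤ ‖z‖ ^ 2 := h1
        _ = ‖z‖ * ‖z‖ := by ring
    exact le_of_mul_le_mul_right h3 hrpos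
  have hlow2 : 4 * Real.pi * p ^ 2 ≤ ‖z‖ ^ 2 := by
    have h1 : (2 * Real.sqrt Real.pi * p) ^ 2 ≤ ‖z‖ ^ 2 :=
      pow_le_pow_left₀ (by positivity) hlow 2
    have h2 := Real.sq_sqrt hpi.le
    nlinarith
  -- deletion
  set v' : Fin n → E d := fun l => y (i0.succAbove l) + (1 / (n : ℝ)) • y i0 with hv'
  set G : ℝ := Real.sqrt (2 * Real.pi) * ∫ x, max 0 (inner ℝ x (y i0) - mx (fun l : Fin n => y (i0.succAbove l)) x) ∂(gam d) with hG
  have hWd : W y = W v' + G := W_del y i0
  have hTd : TT v' = TT y - (((n : ℝ) + 1) / n) * ‖y i0‖ ^ 2 := TT_del y hsy i0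
  have hbd := W_le_of_PBc h v'
  have hTv'pos : 0 < TT v' := by
    have hT0' : 0 ≤ TT v' := Finset.sum_nonneg (fun i _ => by positivity)
    refine lt_of_le_of_ne hT0' (fun he => ?_)
    have hall : ∀ l, v' l = 0 := by
      intro l
      have := (Finset.sum_eq_zero_iff_of_nonneg (fun i _ => by positivity)).mp he.symm l (Finset.mem_univ l)
      simpa using this
    have h01 : (⟨0, by omega⟩ : Fin n) ≠ ⟨1, by omega⟩ := by simp
    have h1 := hvv _ _ h01
    have e1 : v ⟨0, by omega⟩ = -((1 / (n : ℝ)) • z) := eq_neg_of_add_eq_zero_left (hall ⟨0, by omega⟩)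
    have e2 : v ⟨1, by omega⟩ = -((1 / (n : ℝ)) • z) := eq_neg_of_add_eq_zero_left (hall ⟨1, by omega⟩)
    rw [e1, e2, inner_neg_neg, real_inner_self_eq_norm_sq] at h1
    have : 0 ≤ ‖(1 / (n : ℝ)) • z‖ ^ 2 := by positivity
    linarith
  set b : ℝ := (((n : ℝ) + 1) / n) * ‖z‖ ^ 2 with hb
  have hb0 : 0 ≤ b := by positivity
  have hTd' : TT v' = K ^ 2 - b := by rw [hTd, hTy]
  have hbK : b ≤ K ^ 2 := by
    have : 0 ≤ TT v' := hTv'pos.le
    linarith
  have hGlow : b / 2 < G := by
    have h1 : W v' < K * Real.sqrt (TT v') :=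
      lt_of_le_of_lt hbd (mul_lt_mul_of_pos_right hKc (Real.sqrt_pos.mpr hTv'pos))
    have h2 := sqrt_sub_le hK hbK hb0
    rw [← hTd'] at h2
    have h3 : K ^ 2 = W v' + G := by rw [← hWy, hWd]
    linarith
  -- tangent bound
  obtain ⟨u, hu⟩ := exists_dual z v hsum hzv hvv
  have htent := tent_boundR z u v hsum hu hmom
  have hGup : G ≤ (((n : ℝ) + 1) / n) * (2 * Real.pi * p ^ 2) := htent
  -- contradiction
  have hpos : 0 < ((n : ℝ) + 1) / n := by positivity
  have hfin : ((n : ℝ) + 1) / n * ‖z‖ ^ 2 / 2 < ((n : ℝ) + 1) / n * (2 * Real.pi * p ^ 2) := lt_of_lt_of_le hGlow hGup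
  have hfin2 : ‖z‖ ^ 2 < 4 * Real.pi * p ^ 2 := by
    have : ((n : ℝ) + 1) / n * ‖z‖ ^ 2 < ((n : ℝ) + 1) / n * (4 * Real.pi * p ^ 2) := by linarith
    exact lt_of_mul_lt_mul_left this hpos.le
  linarith

/-- Padding: fewer cells are a special case. -/
theorem PBc_pred {c : ℝ} {k : ℕ} (h : PBc (k + 1) c) : PBc k c := by
  intro d A hA
  classical
  let A' : Fin (k + 1) → Set (E d) := Fin.snoc A ∅
  have hA' : IsPart A' := by
    refine ⟨?_, ?_, ?_⟩
    · intro i
      refine Fin.lastCases ?_ (fun j => ?_) i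
      · simp [A']
      · simpa [A'] using hA.meas j
    · intro i j hij
      simp only [Function.onFun]
      induction i using Fin.lastCases with
      | last => simp [A']
      | cast i =>
        induction j using Fin.lastCases with
        | last => simp [A']
        | cast j =>
          simp only [A', Fin.snoc_castSucc]
          exact hA.disj (fun e => hij (by rw [e]))
    · apply Set.eq_univ_of_forall
      intro x
      have hx : x ∈ ⋃ i, A i := by rw [hA.cover]; trivial
      obtain ⟨i, hi⟩ := Set.mem_iUnion.mp hx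
      exact Set.mem_iUnion.mpr ⟨i.castSucc, by simpa [A'] using hi⟩
  have h1 := h d A' hA'
  have h2 : FF A' = FF A := by
    simp only [FF, Fin.sum_univ_castSucc, A', Fin.snoc_castSucc, Fin.snoc_last]
    simp [mom]
  rwa [h2] at h1

/-- **Reduction to finitely many cells.** -/
theorem all_k_of_PBc {c : ℝ} (h : PBc 40 c) (k : ℕ) : PBc k c := by
  have up : ∀ m, PBc (40 + m) c := by
    intro m
    induction m with
    | zero => exact h
    | succ m ih => exact step_PBc (n := 40 + m) (Nat.le_add_right 40 m) ih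
  have down : ∀ m k, PBc (k + m) c → PBc k c := by
    intro m
    induction m with
    | zero => intro k h; exact h
    | succ m ih => intro k h; exact ih k (PBc_pred (by simpa [add_assoc] using h))
  exact down 40 k (by simpa [add_comm] using up k)

end Vale.Agent.Lib.P226
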