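import Vale.Agent.Lib.P226R.Defs

/-!
One dimensional Chebyshev type inequality for the standard Gaussian.
-/

open MeasureTheory ProbabilityTheory Real Set Filter

namespace Vale.Agent.Lib.P226

theorem cheb {A B θ : ℝ} (hθ : 0 < θ) (hB : 0 ≤ B) (hA : θ * (1 + B) ≤ A) (f : ℝ → ℝ)
    (h0 : ∀ t, 0 ≤ f t) (h1 : ∀ t, f t ≤ 1) (hmon : Monotone f) (hneg : ∀ t, t < 0 → f t = 0)
    (hR : ∀ t t', 0 < t → t ≤ t' →
      f t * Real.exp (-A * t + B * t ^ 2 / 2) ≤ f t' * Real.exp (-A * t' + B * t' ^ 2 / 2)) :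
    0 ≤ ∫ t, (t - θ) * f t ∂(gaussianReal 0 1) := by
  obtain ⟨b, hbdef⟩ : ∃ b, b = 1 + B := ⟨_, rfl⟩
  have hb : 0 < b := by rw [hbdef]; positivity
  obtain ⟨ts, htsdef⟩ : ∃ ts, ts = A / b := ⟨_, rfl⟩
  have hts : θ ≤ ts := by rw [htsdef, le_div_iff₀ hb, hbdef]; exact hA
  have hts0 : 0 < ts := lt_of_lt_of_le hθ hts
  have hAb : A = ts * b := by rw [htsdef]; field_simp
  obtain ⟨κ, hκdef⟩ : ∃ κ : ℝ, κ = (√(2 * π))⁻¹ := ⟨_, rfl⟩
  have hκ : 0 < κ := by rw [hκdef]; positivity
  let Ψ : ℝ → ℝ := fun t => rexp (A * t - b * t ^ 2 / 2)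
  let R : ℝ → ℝ := fun t => f t * rexp (-A * t + B * t ^ 2 / 2)
  let h : ℝ → ℝ := fun t => gaussianPDFReal 0 1 t * ((t - θ) * f t)
  have hφ : ∀ t, gaussianPDFReal 0 1 t = κ * rexp (-t ^ 2 / 2) := by
    intro t
    simp [gaussianPDFReal, hκdef]
  have hRΨ : ∀ t, f t * rexp (-t ^ 2 / 2) = R t * Ψ t := by
    intro t
    simp only [R, Ψ]
    rw [mul_assoc, ← Real.exp_add]
    congr 2
    rw [hbdef]; ring
  have hRnn : 0 ≤ R ts := mul_nonneg (h0 _) (Real.exp_pos _).le
  -- the integrand of the comparison function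
  let g : ℝ → ℝ := fun t => κ * R ts * ((t - ts) * Ψ t)
  have hpt : ∀ t, 0 < t → g t ≤ h t := by
    intro t ht
    have h1' : (t - ts) * R ts ≤ (t - ts) * R t := by
      rcases le_total t ts with hle | hle
      · exact mul_le_mul_of_nonpos_left (hR t ts ht hle) (by linarith)
      · exact mul_le_mul_of_nonneg_left (hR ts t hts0 hle) (by linarith)
    have h2 : (t - ts) * f t ≤ (t - θ) * f t :=
      mul_le_mul_of_nonneg_right (by linarith) (h0 t)
    have hΨ : 0 < Ψ t := Real.exp_pos _
    have he : 0 < rexp (-t ^ 2 / 2) := Real.exp_pos _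
    have h3 : (t - ts) * f t * rexp (-t ^ 2 / 2) ≤ (t - θ) * f t * rexp (-t ^ 2 / 2) :=
      mul_le_mul_of_nonneg_right h2 he.le
    have h4 : (t - ts) * R ts * Ψ t ≤ (t - ts) * R t * Ψ t :=
      mul_le_mul_of_nonneg_right h1' hΨ.le
    have h5 : (t - ts) * R t * Ψ t = (t - ts) * f t * rexp (-t ^ 2 / 2) := by
      rw [mul_assoc (t - ts) (R t), ← hRΨ, mul_assoc (t - ts) (f t)]
    have h6 : g t = κ * ((t - ts) * R ts * Ψ t) := by simp only [g]; ring
    have h7 : h t = κ * ((t - θ) * f t * rexp (-t ^ 2 / 2)) := by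
      simp only [h]; rw [hφ]; ring
    rw [h6, h7]
    refine mul_le_mul_of_nonneg_left ?_ hκ.le
    linarith
  -- integrability
  have hfm : Measurable f := hmon.measurable
  have hint_base : Integrable (fun t : ℝ => (t - θ) * gaussianPDFReal 0 1 t) := by
    have e1 : Integrable (fun t : ℝ => t * rexp (-(1 / 2) * t ^ 2)) :=
      integrable_mul_exp_neg_mul_sq (by norm_num)
    have e2 : Integrable (fun t : ℝ => rexp (-(1 / 2) * t ^ 2)) :=
      integrable_exp_neg_mul_sq (by norm_num)
    have e3 := (e1.const_mul κ).sub (e2.const_mul (κ * θ))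
    refine e3.congr (Eventually.of_forall fun t => ?_)
    simp only [Pi.sub_apply]
    rw [hφ]
    have : -t ^ 2 / 2 = -(1 / 2) * t ^ 2 := by ring
    rw [this]; ring
  have hint : Integrable h := by
    have := hint_base.bdd_mul (c := 1) hfm.aestronglyMeasurable
      (Eventually.of_forall fun t => by
        rw [Real.norm_eq_abs, abs_of_nonneg (h0 t)]; exact h1 t)
    refine this.congr (Eventually.of_forall fun t => ?_)
    simp only [h]; ring
  -- integrability and integral of the comparison function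
  have hΨform : ∀ t, Ψ t = rexp (ts ^ 2 * b / 2) * rexp (-(b / 2) * (t - ts) ^ 2) := by
    intro t
    simp only [Ψ]
    rw [← Real.exp_add, hAb]
    congr 1
    ring
  have hgbase : Integrable (fun t : ℝ => (t - ts) * Ψ t) := by
    have e1 : Integrable (fun t : ℝ => t * rexp (-(b / 2) * t ^ 2)) :=
      integrable_mul_exp_neg_mul_sq (by positivity)
    have e2 := (e1.comp_sub_right ts).const_mul (rexp (ts ^ 2 * b / 2))
    refine e2.congr (Eventually.of_forall fun t => ?_)
    simp only
    rw [hΨform]; ring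
  have hderiv : ∀ t ∈ Ici (0 : ℝ), HasDerivAt (fun t => -Ψ t / b) ((t - ts) * Ψ t) t := by
    intro t _
    have d1 : HasDerivAt (fun t : ℝ => A * t - b * t ^ 2 / 2) (A - b * t) t := by
      have := ((hasDerivAt_id t).const_mul A).sub
        (((hasDerivAt_id t).pow 2).const_mul (b / 2))
      refine (this.congr_deriv ?_).congr_of_eventuallyEq ?_
      · simp; ring
      · refine Eventually.of_forall fun x => ?_
        simp; ring
    have d2 : HasDerivAt Ψ (rexp (A * t - b * t ^ 2 / 2) * (A - b * t)) t := d1.exp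
    have d3 := (d2.neg).div_const b
    refine d3.congr_deriv ?_
    change -(rexp (A * t - b * t ^ 2 / 2) * (A - b * t)) / b = (t - ts) * rexp (A * t - b * t ^ 2 / 2)
    rw [hAb]; field_simp; ring
  have hlim : Tendsto (fun t => -Ψ t / b) atTop (nhds 0) := by
    have t1 : Tendsto (fun t : ℝ => A * t - b * t ^ 2 / 2) atTop atBot := by
      have t2 : Tendsto (fun t : ℝ => A - b / 2 * t) atTop atBot := by
        have : Tendsto (fun t : ℝ => b / 2 * t) atTop atTop :=
          tendsto_id.const_mul_atTop (by positivity)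
        have := tendsto_atBot_add_const_left atTop A (tendsto_neg_atTop_atBot.comp this)
        simpa [sub_eq_add_neg, Function.comp_def] using this
      have := Filter.Tendsto.atTop_mul_atBot₀ tendsto_id t2
      refine this.congr fun t => ?_
      simp; ring
    have t3 : Tendsto Ψ atTop (nhds 0) := Real.tendsto_exp_atBot.comp t1
    have := (t3.neg).div_const b
    simpa using this
  have hval : ∫ t in Ioi (0 : ℝ), (t - ts) * Ψ t = 1 / b := by
    rw [integral_Ioi_of_hasDerivAt_of_tendsto' hderiv hgbase.integrableOn hlim]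
    simp only [Ψ]
    norm_num
    ring
  -- assembling
  have hmain : ∫ t, (t - θ) * f t ∂(gaussianReal 0 1) = ∫ t, h t := by
    rw [integral_gaussianReal_eq_integral_smul (by norm_num)]
    rfl
  have hcompl : ∫ t, h t = ∫ t in Ioi (0 : ℝ), h t := by
    symm
    refine setIntegral_eq_integral_of_ae_compl_eq_zero ?_
    have hnull : ∀ᵐ t : ℝ, t ≠ 0 := by
      have : ({0}ᶜ : Set ℝ) ∈ ae (volume : Measure ℝ) := by
        simp [compl_mem_ae_iff]
      filter_upwards [this] with t ht using ht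
    filter_upwards [hnull] with t ht htn
    have ht' : t < 0 := lt_of_le_of_ne (by simpa using htn) ht
    simp [h, hneg t ht']
  rw [hmain, hcompl]
  have hge : ∫ t in Ioi (0 : ℝ), g t ≤ ∫ t in Ioi (0 : ℝ), h t :=
    setIntegral_mono_on ((hgbase.const_mul (κ * R ts)).integrableOn) hint.integrableOn
      measurableSet_Ioi (fun t ht => hpt t ht)
  have hgval : ∫ t in Ioi (0 : ℝ), g t = κ * R ts * (1 / b) := by
    simp only [g]
    rw [integral_const_mul, hval]
  have : 0 ≤ κ * R ts * (1 / b) := by positivity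
  linarith

end Vale.Agent.Lib.P226
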