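import Vale.Agent.Lib.P226R.Defs

/-!
The standard normal distribution function, its derivative, and the hazard inequalities of Sampford
type used in the reduction of the propeller problem.
-/

open MeasureTheory ProbabilityTheory Real Filter Topology Set

namespace Vale.Agent.Lib.P226

theorem ph_eq (x : ℝ) : ph x = (√(2 * π))⁻¹ * rexp (-x ^ 2 / 2) := by
  unfold ph
  rw [gaussianPDFReal_def]
  simp

theorem ph_pos (x : ℝ) : 0 < ph x := gaussianPDFReal_pos 0 1 x one_ne_zero

theorem continuous_ph : Continuous ph := by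
  have : ph = fun x => (√(2 * π))⁻¹ * rexp (-x ^ 2 / 2) := funext ph_eq
  rw [this]
  fun_prop

theorem hasDerivAt_ph (x : ℝ) : HasDerivAt ph (-x * ph x) x := by
  have h1 : HasDerivAt (fun x : ℝ => -x ^ 2 / 2) (-x) x := by
    have h := ((hasDerivAt_pow 2 x).neg).div_const 2
    have h' : HasDerivAt (fun x : ℝ => -x ^ 2 / 2) (-(((2 : ℕ) : ℝ) * x ^ (2 - 1)) / 2) x := h
    exact h'.congr_deriv (by norm_num; ring)
  have h2 := (h1.exp).const_mul (√(2 * π))⁻¹
  have h3 : HasDerivAt (fun x => (√(2 * π))⁻¹ * rexp (-x ^ 2 / 2)) (-x * ph x) x :=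
    h2.congr_deriv (by rw [ph_eq]; ring)
  exact h3.congr_of_eventuallyEq (Eventually.of_forall ph_eq)

theorem Ph_pos (x : ℝ) : 0 < Ph x := by
  unfold Ph
  have hne : (gaussianReal 0 1) (Iic x) ≠ 0 := by
    intro h
    have h0 := gaussianReal_absolutelyContinuous' (0 : ℝ) (v := 1) one_ne_zero h
    rw [Real.volume_Iic] at h0
    exact ENNReal.top_ne_zero h0
  exact ENNReal.toReal_pos hne (measure_ne_top _ _)

theorem Ph_le_one (x : ℝ) : Ph x ≤ 1 := by
  unfold Ph
  exact measureReal_le_one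

theorem Ph_eq_integral (x : ℝ) : Ph x = ∫ t in Iic x, ph t := by
  unfold Ph
  rw [Measure.real, gaussianReal_apply_eq_integral 0 one_ne_zero]
  exact ENNReal.toReal_ofReal (setIntegral_nonneg measurableSet_Iic fun t _ => (ph_pos t).le)

theorem integrable_ph : Integrable ph := integrable_gaussianPDFReal 0 1

theorem hasDerivAt_Ph (x : ℝ) : HasDerivAt Ph (ph x) x := by
  have e : Ph = fun y => Ph 0 + ∫ t in (0 : ℝ)..y, ph t := by
    funext y
    have h := intervalIntegral.integral_Iic_sub_Iic (a := 0) (b := y) (f := ph) (μ := volume)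
      integrable_ph.integrableOn integrable_ph.integrableOn
    rw [Ph_eq_integral, Ph_eq_integral, ← h]
    ring
  rw [e]
  exact ((continuous_ph.integral_hasStrictDerivAt 0 x).hasDerivAt).const_add _

theorem Ph_eq_cdf : Ph = cdf (gaussianReal 0 1) := by
  funext x
  unfold Ph
  rw [cdf_eq_real]

theorem tendsto_Ph_atBot : Tendsto Ph atBot (𝓝 0) := by
  rw [Ph_eq_cdf]
  exact tendsto_cdf_atBot _

theorem eta_pos (x : ℝ) : 0 < eta x := div_pos (ph_pos x) (Ph_pos x)

theorem ph_le_eta (x : ℝ) : ph x ≤ eta x := by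
  unfold eta
  rw [le_div_iff₀ (Ph_pos x)]
  have := mul_le_mul_of_nonneg_left (Ph_le_one x) (ph_pos x).le
  linarith

theorem ph_le_one (x : ℝ) : ph x ≤ 1 := by
  rw [ph_eq]
  have h1 : rexp (-x ^ 2 / 2) ≤ 1 := by
    rw [Real.exp_le_one_iff]
    nlinarith [sq_nonneg x]
  have h2 : (√(2 * π))⁻¹ ≤ 1 := by
    apply inv_le_one_of_one_le₀
    rw [Real.one_le_sqrt]
    nlinarith [Real.pi_gt_three]
  have h3 : 0 ≤ (√(2 * π))⁻¹ := by positivity
  have h4 := Real.exp_pos (-x ^ 2 / 2)
  nlinarith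

/-- Sampford tangents. -/
theorem eta_tangent {c δ : ℝ} (h0 : 0 < c) (h1 : c < 1) (hδ : δ ^ 2 ≤ 4 * c ^ 2 * (1 - c)) (x : ℝ) :
    δ - c * x ≤ eta x := by
  by_cases hx : δ - c * x ≤ 0
  · exact hx.trans (eta_pos x).le
  push Not at hx
  -- the auxiliary function
  set G : ℝ → ℝ := fun y => ph y / (δ - c * y) - Ph y with hG
  have hψ : ∀ y ∈ Iio (δ / c), 0 < δ - c * y := by
    intro y hy
    have hy' : y < δ / c := hy
    rw [lt_div_iff₀ h0] at hy'
    nlinarith
  have hder : ∀ y ∈ Iio (δ / c), HasDerivAt G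
      (ph y * (c - y * (δ - c * y) - (δ - c * y) ^ 2) / (δ - c * y) ^ 2) y := by
    intro y hy
    have hp := hψ y hy
    have h2 : HasDerivAt (fun y => δ - c * y) (-c) y := by
      have := ((hasDerivAt_id y).const_mul c).const_sub δ
      simpa using this
    have h3 := (hasDerivAt_ph y).div h2 hp.ne'
    have h4 := h3.sub (hasDerivAt_Ph y)
    have hne : δ - c * y ≠ 0 := hp.ne'
    have h5 : HasDerivAt G ((-y * ph y * (δ - c * y) - ph y * -c) / (δ - c * y) ^ 2 - ph y) y := h4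
    refine h5.congr_deriv ?_
    generalize δ - c * y = ψ at hne ⊢
    generalize ph y = f
    field_simp
    ring
  have hmono : MonotoneOn G (Iio (δ / c)) := by
    refine monotoneOn_of_deriv_nonneg (convex_Iio _) ?_ ?_ ?_
    · exact fun y hy => (hder y hy).continuousAt.continuousWithinAt
    · rw [interior_Iio]
      exact fun y hy => (hder y hy).differentiableAt.differentiableWithinAt
    · rw [interior_Iio]
      intro y hy
      rw [(hder y hy).deriv]
      refine div_nonneg (mul_nonneg (ph_pos y).le ?_) (sq_nonneg _)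
      -- the quadratic has nonpositive discriminant
      have h5 : 0 < 1 - c := by linarith
      have h6 : 0 ≤ c * (1 - c) := by positivity
      have h7 : 0 < c * (1 - c) := by positivity
      have key : 4 * (c * (1 - c)) * (c - y * (δ - c * y) - (δ - c * y) ^ 2)
          = (2 * (c * (1 - c)) * y + δ * (2 * c - 1)) ^ 2 + (4 * c ^ 2 * (1 - c) - δ ^ 2) := by
        have : 4 * (c * (1 - c)) * (c - y * (δ - c * y) - (δ - c * y) ^ 2)
            - ((2 * (c * (1 - c)) * y + δ * (2 * c - 1)) ^ 2 + (4 * c ^ 2 * (1 - c) - δ ^ 2))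
            = 0 := by ring
        linarith
      have h8 : 0 ≤ 4 * (c * (1 - c)) * (c - y * (δ - c * y) - (δ - c * y) ^ 2) := by
        rw [key]
        nlinarith [sq_nonneg (2 * (c * (1 - c)) * y + δ * (2 * c - 1))]
      exact nonneg_of_mul_nonneg_right h8 (by positivity)
  have hxI : x ∈ Iio (δ / c) := by
    change x < δ / c
    rw [lt_div_iff₀ h0]
    nlinarith
  -- the limit at minus infinity
  have hψlim : Tendsto (fun y : ℝ => δ - c * y) atBot atTop := by
    have h1 : Tendsto (fun y : ℝ => c * (-y)) atBot atTop :=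
      (tendsto_neg_atBot_atTop).const_mul_atTop h0
    have h2 := tendsto_atTop_add_const_left atBot δ h1
    refine h2.congr fun y => ?_
    ring
  have hevψ : ∀ᶠ y : ℝ in atBot, 0 < δ - c * y := hψlim.eventually_gt_atTop 0
  have hlim1 : Tendsto (fun y : ℝ => ph y / (δ - c * y)) atBot (𝓝 0) := by
    have hb : Tendsto (fun y : ℝ => 1 / (δ - c * y)) atBot (𝓝 0) :=
      tendsto_const_nhds.div_atTop hψlim
    refine squeeze_zero' ?_ ?_ hb
    · filter_upwards [hevψ] with y hy
      exact div_nonneg (ph_pos y).le hy.le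
    · filter_upwards [hevψ] with y hy
      exact div_le_div_of_nonneg_right (ph_le_one y) hy.le
  have hlim : Tendsto G atBot (𝓝 0) := by
    have := hlim1.sub tendsto_Ph_atBot
    simpa [hG] using this
  have hG0 : 0 ≤ G x := by
    refine le_of_tendsto hlim ?_
    filter_upwards [eventually_le_atBot x] with y hy
    exact hmono (lt_of_le_of_lt hy hxI) hxI hy
  -- conclusion
  have hP := Ph_pos x
  unfold eta
  rw [le_div_iff₀ hP]
  have h9 : Ph x ≤ ph x / (δ - c * x) := by
    simpa [hG] using hG0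
  rw [le_div_iff₀ hx] at h9
  linarith

/-! ### Numerical bounds of the density -/

theorem sqrt_two_pi_le : √(2 * π) ≤ 2507 / 1000 := by
  rw [Real.sqrt_le_left (by norm_num)]
  nlinarith [Real.pi_lt_d4]

/-- Lower bound of the density in terms of the exponential. -/
theorem ph_ge (x : ℝ) : (1000 / 2507) * rexp (-x ^ 2 / 2) ≤ ph x := by
  rw [ph_eq]
  have h1 : (0 : ℝ) < √(2 * π) := Real.sqrt_pos.2 (by positivity)
  have h2 : (1000 / 2507 : ℝ) ≤ (√(2 * π))⁻¹ := by
    rw [le_inv_comm₀ (by norm_num) h1]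
    have := sqrt_two_pi_le
    norm_num at this ⊢
    linarith
  exact mul_le_mul_of_nonneg_right h2 (Real.exp_pos _).le

theorem exp_neg_one_ge : (1 / 2.7182818286 : ℝ) ≤ rexp (-1) := by
  rw [Real.exp_neg, one_div]
  exact inv_anti₀ (Real.exp_pos 1) Real.exp_one_lt_d9.le

/-- Monotonicity of the density on the positive half line. -/
theorem ph_anti {x y : ℝ} (hx : 0 ≤ x) (hxy : x ≤ y) : ph y ≤ ph x := by
  rw [ph_eq, ph_eq]
  have h1 : 0 ≤ (√(2 * π))⁻¹ := by positivity
  refine mul_le_mul_of_nonneg_left ?_ h1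
  rw [Real.exp_le_exp]
  nlinarith

theorem ph_155 : (11 / 100 : ℝ) ≤ ph (31 / 20) := by
  have h1 := ph_ge (31 / 20)
  have h2 : rexp (-(31 / 20 : ℝ) ^ 2 / 2) ≥ rexp (-1) * rexp (-(1 / 4)) := by
    rw [← Real.exp_add, ge_iff_le, Real.exp_le_exp]
    norm_num
  have h3 : (3 / 4 : ℝ) ≤ rexp (-(1 / 4)) := by
    have := Real.add_one_le_exp (-(1 / 4) : ℝ)
    linarith
  have h4 := exp_neg_one_ge
  have h5 : (1 / 2.7182818286 : ℝ) * (3 / 4) ≤ rexp (-1) * rexp (-(1 / 4)) :=
    mul_le_mul h4 h3 (by norm_num) (Real.exp_pos _).le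
  norm_num at h1 h2 h5 ⊢
  linarith

/-- The density dominates a line on `[31/20, 31/10]`. -/
theorem ph_line {x : ℝ} (h1 : 31 / 20 ≤ x) (h2 : x ≤ 31 / 10) :
    (9 / 400) * (31 / 10 - x) ≤ ph x := by
  have e1 := exp_neg_one_ge
  have e0 : (0 : ℝ) < rexp (-1) := Real.exp_pos _
  by_cases h3 : x ≤ 2
  · have h4 := ph_anti (x := x) (y := 2) (by linarith) h3
    have h5 := ph_ge 2
    have h6 : rexp (-(2 : ℝ) ^ 2 / 2) = rexp (-1) * rexp (-1) := by
      rw [← Real.exp_add]
      norm_num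
    rw [h6] at h5
    have h7 : (1 / 2.7182818286 : ℝ) * (1 / 2.7182818286) ≤ rexp (-1) * rexp (-1) :=
      mul_le_mul e1 e1 (by norm_num) e0.le
    norm_num at h5 h7 e1 ⊢
    nlinarith
  push Not at h3
  have h9 : (1 / 2.7182818286 : ℝ) * (1 / 2.7182818286) ≤ rexp (-1) * rexp (-1) :=
    mul_le_mul e1 e1 (by norm_num) e0.le
  have h10 : (1 / 2.7182818286 : ℝ) * (1 / 2.7182818286) * (1 / 2.7182818286)
      ≤ rexp (-1) * rexp (-1) * rexp (-1) :=
    mul_le_mul h9 e1 (by norm_num) (by positivity)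
  by_cases h4' : x ≤ 11 / 5
  · have h5 := ph_anti (x := x) (y := 11 / 5) (by linarith) h4'
    have h6 := ph_ge (11 / 5)
    have h7 : rexp (-(1 : ℝ)) * rexp (-1) * rexp (-1) * rexp (29 / 50) ≤ rexp (-(11 / 5 : ℝ) ^ 2 / 2) := by
      rw [← Real.exp_add, ← Real.exp_add, ← Real.exp_add, Real.exp_le_exp]
      norm_num
    have h8 : (1 + 29 / 50 : ℝ) ≤ rexp (29 / 50) := by
      have := Real.add_one_le_exp (29 / 50 : ℝ)
      linarith
    have h11 : (1 / 2.7182818286 : ℝ) * (1 / 2.7182818286) * (1 / 2.7182818286) * (1 + 29 / 50)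
        ≤ rexp (-1) * rexp (-1) * rexp (-1) * rexp (29 / 50) :=
      mul_le_mul h10 h8 (by norm_num) (by positivity)
    norm_num at h6 h7 h11 ⊢
    nlinarith
  push Not at h4'
  by_cases h4 : x ≤ 47 / 20
  · have h5 := ph_anti (x := x) (y := 47 / 20) (by linarith) h4
    have h6 := ph_ge (47 / 20)
    have h7 : rexp (-(1 : ℝ)) * rexp (-1) * rexp (-1) * rexp (119 / 500) ≤ rexp (-(47 / 20 : ℝ) ^ 2 / 2) := by
      rw [← Real.exp_add, ← Real.exp_add, ← Real.exp_add, Real.exp_le_exp]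
      norm_num
    have h8 : (1 + 119 / 500 : ℝ) ≤ rexp (119 / 500) := by
      have := Real.add_one_le_exp (119 / 500 : ℝ)
      linarith
    have h11 : (1 / 2.7182818286 : ℝ) * (1 / 2.7182818286) * (1 / 2.7182818286) * (1 + 119 / 500)
        ≤ rexp (-1) * rexp (-1) * rexp (-1) * rexp (119 / 500) :=
      mul_le_mul h10 h8 (by norm_num) (by positivity)
    norm_num at h6 h7 h11 ⊢
    nlinarith
  push Not at h4
  -- tangent of the exponential at `14/5`
  have h5 := ph_ge x
  have h6 : rexp (-(14 / 5 : ℝ) ^ 2 / 2) * rexp ((14 / 5 : ℝ) ^ 2 / 2 - x ^ 2 / 2) = rexp (-x ^ 2 / 2) := by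
    rw [← Real.exp_add]
    congr 1
    ring
  have h7 : 1 + ((14 / 5 : ℝ) ^ 2 / 2 - x ^ 2 / 2) ≤ rexp ((14 / 5 : ℝ) ^ 2 / 2 - x ^ 2 / 2) := by
    have := Real.add_one_le_exp ((14 / 5 : ℝ) ^ 2 / 2 - x ^ 2 / 2)
    linarith
  have h8 : rexp (-(1 : ℝ)) * rexp (-1) * rexp (-1) * rexp (-1) * rexp (2 / 25) ≤ rexp (-(14 / 5 : ℝ) ^ 2 / 2) := by
    rw [← Real.exp_add, ← Real.exp_add, ← Real.exp_add, ← Real.exp_add, Real.exp_le_exp]
    norm_num
  have h9' : (1 + 2 / 25 : ℝ) ≤ rexp (2 / 25) := by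
    have := Real.add_one_le_exp (2 / 25 : ℝ)
    linarith
  have h12 : (1 / 2.7182818286 : ℝ) * (1 / 2.7182818286) * (1 / 2.7182818286) * (1 / 2.7182818286)
      ≤ rexp (-1) * rexp (-1) * rexp (-1) * rexp (-1) :=
    mul_le_mul h10 e1 (by norm_num) (by positivity)
  have h13 : (1 / 2.7182818286 : ℝ) * (1 / 2.7182818286) * (1 / 2.7182818286) * (1 / 2.7182818286) * (1 + 2 / 25)
      ≤ rexp (-1) * rexp (-1) * rexp (-1) * rexp (-1) * rexp (2 / 25) :=
    mul_le_mul h12 h9' (by norm_num) (by positivity)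
  have h14 : (0.0197 : ℝ) ≤ rexp (-(14 / 5 : ℝ) ^ 2 / 2) := by
    norm_num at h13 h8 ⊢
    linarith
  have h15 : 0 ≤ 1 + ((14 / 5 : ℝ) ^ 2 / 2 - x ^ 2 / 2) := by nlinarith
  have h16 : (0.0197 : ℝ) * (1 + ((14 / 5 : ℝ) ^ 2 / 2 - x ^ 2 / 2)) ≤ rexp (-x ^ 2 / 2) := by
    rw [← h6]
    exact mul_le_mul h14 h7 h15 (Real.exp_pos _).le
  norm_num at h5 h16 ⊢
  nlinarith [mul_nonneg (sub_nonneg.2 h4.le) (sub_nonneg.2 h2)]

/-- The main numeric hazard inequality. -/
theorem hazard_main {x μ lam : ℝ} (hμ : 1 ≤ μ) (h0 : 0 < lam) (h1 : lam ≤ 9 / 400)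
    (h2 : lam * μ ^ 2 ≤ 9 / 10) : (31 / 10) * lam ≤ eta x / μ + lam * μ * x := by
  have hμ0 : 0 < μ := by linarith
  have hη := eta_pos x
  have hdiv : 0 < eta x / μ := div_pos hη hμ0
  have hlm0 : 0 < lam * μ := mul_pos h0 hμ0
  have hlm : lam * μ ≤ 1 / 7 := by
    have h3 : (lam * μ) ^ 2 ≤ (1 / 7) ^ 2 := by
      have : (lam * μ) ^ 2 = lam * (lam * μ ^ 2) := by ring
      rw [this]
      have h4 : lam * (lam * μ ^ 2) ≤ 9 / 400 * (9 / 10) :=
        mul_le_mul h1 h2 (by positivity) (by norm_num)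
      norm_num at h4 ⊢
      linarith
    exact abs_le_of_sq_le_sq' h3 (by norm_num) |>.2
  by_cases hc1 : 31 / 10 ≤ μ * x
  · have : lam * (31 / 10) ≤ lam * (μ * x) := mul_le_mul_of_nonneg_left hc1 h0.le
    nlinarith
  push Not at hc1
  rcases le_or_gt x 0 with hx | hx
  · -- negative `x`
    have ht := eta_tangent (c := 9 / 10) (δ := 569 / 1000) (by norm_num) (by norm_num) (by norm_num) x
    have h3 : 31 / 10 * lam * μ ≤ eta x + lam * μ ^ 2 * x := by
      have h4 : 9 / 10 * x ≤ lam * μ ^ 2 * x := mul_le_mul_of_nonpos_right h2 hx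
      nlinarith
    have e : eta x / μ + lam * μ * x = (eta x + lam * μ ^ 2 * x) / μ := by
      field_simp
    rw [e, le_div_iff₀ hμ0]
    exact h3
  rcases le_or_gt x (1 / 2) with hx2 | hx2
  · have ht := eta_tangent (c := 1 / 2) (δ := 7 / 10) (by norm_num) (by norm_num) (by norm_num) x
    have h3 : 31 / 10 * lam * μ ≤ eta x := by nlinarith
    have h4 : 31 / 10 * lam ≤ eta x / μ := by
      rw [le_div_iff₀ hμ0]
      exact h3
    have h5 : 0 ≤ lam * μ * x := by positivity
    linarith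
  -- large `x`
  have hφ := ph_le_eta x
  by_cases hc : (31 / 10) ^ 2 * lam ≤ 4 * x * eta x
  · -- arithmetic and geometric mean
    set A := eta x / μ with hA
    set B := lam * μ * x with hB
    have hB0 : 0 < B := by positivity
    have hAB : A * B = lam * x * eta x := by
      rw [hA, hB]
      field_simp
    have h3 : (31 / 10 * lam) ^ 2 ≤ (A + B) ^ 2 := by
      have h4 : (A + B) ^ 2 = (A - B) ^ 2 + 4 * (A * B) := by ring
      rw [h4, hAB]
      have h5 : lam * ((31 / 10) ^ 2 * lam) ≤ lam * (4 * x * eta x) :=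
        mul_le_mul_of_nonneg_left hc h0.le
      nlinarith [sq_nonneg (A - B)]
    exact abs_le_of_sq_le_sq' h3 (by positivity) |>.2
  push Not at hc
  have hlam : (31 / 10) ^ 2 * lam ≤ (31 / 10) ^ 2 * (9 / 400) := by
    apply mul_le_mul_of_nonneg_left h1
    positivity
  -- `x` is at least `31/20`
  have hx3 : 31 / 20 ≤ x := by
    by_contra hlt
    push Not at hlt
    have h3 := ph_anti (x := x) (y := 31 / 20) (by linarith) hlt.le
    have h4 := ph_155
    have h5 : 1 / 2 * (11 / 100) ≤ x * ph x := by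
      apply mul_le_mul hx2.le (h4.trans h3) (by positivity) (by linarith)
    have h6 : x * ph x ≤ x * eta x := mul_le_mul_of_nonneg_left hφ (by linarith)
    norm_num at h5 hlam
    nlinarith
  have hηx : eta x < lam * x := by
    have h3 : 4 * x * eta x < (31 / 10) ^ 2 * lam := hc
    have h4 : 4 * x * x ≥ (31 / 10) ^ 2 := by nlinarith
    by_contra hge
    push Not at hge
    have h5 : x * (lam * x) ≤ x * eta x := mul_le_mul_of_nonneg_left hge (by linarith)
    nlinarith
  have hstep : eta x + lam * x ≤ eta x / μ + lam * μ * x := by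
    have h3 : eta x / μ ≤ eta x := div_le_self hη.le hμ
    have h4 : 0 ≤ (μ - 1) * (lam * x - eta x / μ) :=
      mul_nonneg (by linarith) (by linarith)
    have h5 : (μ - 1) * (lam * x - eta x / μ) = eta x / μ + lam * μ * x - (eta x + lam * x) := by
      field_simp
      ring
    linarith
  refine le_trans ?_ hstep
  rcases le_or_gt (31 / 10) x with hx4 | hx4
  · have : lam * (31 / 10) ≤ lam * x := mul_le_mul_of_nonneg_left hx4 h0.le
    nlinarith
  · have h3 := ph_line hx3 hx4.le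
    have h4 : lam * (31 / 10 - x) ≤ 9 / 400 * (31 / 10 - x) :=
      mul_le_mul_of_nonneg_right h1 (by linarith)
    nlinarith

end Vale.Agent.Lib.P226
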