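import Vale.Agent.Lib.P226R.MR
import Vale.Agent.Lib.P226R.Phi
import Vale.Agent.Lib.P226R.Cheb

/-! The core inequality. -/

open MeasureTheory ProbabilityTheory

namespace Vale.Agent.Lib.P226

variable {d n : ℕ}

/-- The hazard inequality with the extra weights. -/
theorem hazard_vertex {x μ lam a e : ℝ} (ha : 1 ≤ a) (hμ : 0 < μ) (he1 : e ≤ 1) (heμ : e ≤ μ)
    (h0 : 0 < lam) (h1 : lam ≤ 9 / 400) (h2 : lam * μ ^ 2 ≤ 9 / 10) :
    (31 / 10) * lam * e ≤ (a / μ) * eta x + lam * μ * x := by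
  have heta : 0 ≤ eta x := div_nonneg (by simpa [ph] using gaussianPDFReal_nonneg 0 1 x) (Ph_pos x).le
  by_cases hc : μ ^ 2 ≤ a
  · -- the case `a / μ ≥ μ`
    have hb := hazard_main (x := x) (μ := 1) (lam := lam) le_rfl h0 h1 (by nlinarith)
    simp only [div_one, mul_one, one_pow] at hb
    have h3 : μ ≤ a / μ := by
      rw [le_div_iff₀ hμ]; nlinarith
    have h4 : μ * eta x ≤ (a / μ) * eta x := mul_le_mul_of_nonneg_right h3 heta
    have h5 : μ * ((31 / 10) * lam) ≤ μ * (eta x + lam * x) := mul_le_mul_of_nonneg_left hb hμ.le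
    have h6 : (31 / 10) * lam * e ≤ (31 / 10) * lam * μ :=
      mul_le_mul_of_nonneg_left heμ (by positivity)
    nlinarith
  · -- the case `μ > 1`
    push Not at hc
    have hμ1 : 1 ≤ μ := by
      by_contra hlt
      push Not at hlt
      nlinarith
    have hb := hazard_main (x := x) (μ := μ) (lam := lam) hμ1 h0 h1 h2
    have h3 : 1 / μ ≤ a / μ := div_le_div_of_nonneg_right ha hμ.le
    have h4 : (1 / μ) * eta x ≤ (a / μ) * eta x := mul_le_mul_of_nonneg_right h3 heta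
    have h5 : eta x / μ = (1 / μ) * eta x := by ring
    have h6 : (31 / 10) * lam * e ≤ (31 / 10) * lam * 1 :=
      mul_le_mul_of_nonneg_left he1 (by positivity)
    rw [h5] at hb
    linarith

/-- The sum of the hazard rates. -/
theorem hazard_sum (hn : 40 ≤ n) (ι : Fin n → E d) (a s e : Fin n → ℝ)
    (ha : ∀ l, 1 ≤ a l) (hsa : ∑ l, a l = (n : ℝ) + 1) (hss : ∑ l, s l = 0)
    (he1 : ∀ l, e l ≤ 1) (heμ : ∀ l, e l ≤ ‖ι l‖) (hμn : ∀ l, ‖ι l‖ ^ 2 ≤ n)
    (hse : (n : ℝ) - 1 ≤ ∑ l, e l) (τ : ℝ)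
    (hadm : ∀ l, ι l = 0 → 0 ≤ a l * τ - s l) :
    (31 / 10) * ((9 / 10) / (n : ℝ)) * ((n : ℝ) - 1) - ((9 / 10) / (n : ℝ)) * ((n : ℝ) + 1) * τ
      ≤ ∑ l with ι l ≠ 0, (a l / ‖ι l‖) * eta ((a l * τ - s l) / ‖ι l‖) := by
  classical
  have hn' : (40 : ℝ) ≤ n := by exact_mod_cast hn
  have hnpos : (0 : ℝ) < n := by linarith
  set lam : ℝ := (9 / 10) / (n : ℝ) with hlam
  have hlam0 : 0 < lam := by positivity
  have hlam1 : lam ≤ 9 / 400 := by
    rw [hlam, div_le_iff₀ hnpos]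
    nlinarith
  have hlamn : lam * n = 9 / 10 := by
    rw [hlam]; field_simp
  set U := Finset.univ.filter (fun l => ι l ≠ 0) with hU
  have hv : ∀ l ∈ U, (31 / 10) * lam * e l - lam * (a l * τ - s l)
      ≤ (a l / ‖ι l‖) * eta ((a l * τ - s l) / ‖ι l‖) := by
    intro l hl
    have hne : ι l ≠ 0 := (Finset.mem_filter.mp hl).2
    have hμ : 0 < ‖ι l‖ := norm_pos_iff.mpr hne
    have h2 : lam * ‖ι l‖ ^ 2 ≤ 9 / 10 := by
      rw [← hlamn]
      exact mul_le_mul_of_nonneg_left (hμn l) hlam0.le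
    have := hazard_vertex (x := (a l * τ - s l) / ‖ι l‖) (ha l) hμ (he1 l) (heμ l) hlam0 hlam1 h2
    have e2 : lam * ‖ι l‖ * ((a l * τ - s l) / ‖ι l‖) = lam * (a l * τ - s l) := by
      field_simp
    rw [e2] at this
    linarith
  have hsum := Finset.sum_le_sum hv
  refine le_trans ?_ hsum
  rw [Finset.sum_sub_distrib, ← Finset.mul_sum, ← Finset.mul_sum]
  -- compare sums over `U` and over all indices
  have hsplit : ∀ g : Fin n → ℝ, ∑ l, g l = ∑ l ∈ U, g l + ∑ l ∈ Finset.univ.filter (fun l => ¬ ι l ≠ 0), g l := by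
    intro g
    rw [hU, Finset.sum_filter_add_sum_filter_not]
  have h1 : ∑ l ∈ Finset.univ.filter (fun l => ¬ ι l ≠ 0), e l ≤ 0 := by
    refine Finset.sum_nonpos (fun l hl => ?_)
    have h0 : ι l = 0 := by simpa using (Finset.mem_filter.mp hl).2
    have := heμ l
    rw [h0, norm_zero] at this
    exact this
  have h2 : 0 ≤ ∑ l ∈ Finset.univ.filter (fun l => ¬ ι l ≠ 0), (a l * τ - s l) := by
    refine Finset.sum_nonneg (fun l hl => ?_)
    have h0 : ι l = 0 := by simpa using (Finset.mem_filter.mp hl).2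
    exact hadm l h0
  have h3 := hsplit e
  have h4 := hsplit (fun l => a l * τ - s l)
  have h5 : ∑ l, (a l * τ - s l) = ((n : ℝ) + 1) * τ := by
    rw [Finset.sum_sub_distrib, ← Finset.sum_mul, hsa, hss, sub_zero]
  rw [h5] at h4
  have h6 : (n : ℝ) - 1 ≤ ∑ l ∈ U, e l := by linarith
  have h7 : ∑ l ∈ U, (a l * τ - s l) ≤ ((n : ℝ) + 1) * τ := by linarith
  have h8 : (31 / 10) * lam * ((n : ℝ) - 1) ≤ (31 / 10) * lam * ∑ l ∈ U, e l :=
    mul_le_mul_of_nonneg_left h6 (by positivity)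
  have h9 : lam * ∑ l ∈ U, (a l * τ - s l) ≤ lam * (((n : ℝ) + 1) * τ) :=
    mul_le_mul_of_nonneg_left h7 hlam0.le
  nlinarith

/-- The logarithmic derivative of a product of normal distribution functions. -/
theorem hasDerivAt_logsum (ι : Fin n → E d) (a s : Fin n → ℝ) (A B τ : ℝ) :
    HasDerivAt (fun τ => ∑ l with ι l ≠ 0, Real.log (Ph ((a l * τ - s l) / ‖ι l‖)) - A * τ + B * τ ^ 2 / 2)
      (∑ l with ι l ≠ 0, (a l / ‖ι l‖) * eta ((a l * τ - s l) / ‖ι l‖) - A + B * τ) τ := by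
  classical
  have h1 : HasDerivAt (fun τ => ∑ l with ι l ≠ 0, Real.log (Ph ((a l * τ - s l) / ‖ι l‖)))
      (∑ l with ι l ≠ 0, (a l / ‖ι l‖) * eta ((a l * τ - s l) / ‖ι l‖)) τ := by
    have := HasDerivAt.fun_sum (u := Finset.univ.filter (fun l => ι l ≠ 0))
      (A := fun l τ => Real.log (Ph ((a l * τ - s l) / ‖ι l‖)))
      (A' := fun l => (a l / ‖ι l‖) * eta ((a l * τ - s l) / ‖ι l‖)) (x := τ) ?_
    · exact this
    · intro l _
      have h2 : HasDerivAt (fun τ => (a l * τ - s l) / ‖ι l‖) (a l / ‖ι l‖) τ := by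
        have := (((hasDerivAt_id τ).const_mul (a l)).sub_const (s l)).div_const ‖ι l‖
        simpa using this
      have h3 := (hasDerivAt_Ph ((a l * τ - s l) / ‖ι l‖)).comp τ h2
      have h4 := h3.log (Ph_pos _).ne'
      refine h4.congr_deriv ?_
      unfold eta
      simp only [Function.comp]
      ring
  have h5 : HasDerivAt (fun τ : ℝ => A * τ) A τ := by
    simpa using (hasDerivAt_id τ).const_mul A
  have h6 : HasDerivAt (fun τ : ℝ => B * τ ^ 2 / 2) (B * τ) τ := by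
    have := ((hasDerivAt_pow 2 τ).const_mul B).div_const 2
    refine this.congr_deriv ?_
    simp
    ring
  exact (h1.sub h5).add h6

/-- Monotonicity of the corrected ratio. -/
theorem ratio_mono (hn : 40 ≤ n) (ι : Fin n → E d) (a s e : Fin n → ℝ)
    (ha : ∀ l, 1 ≤ a l) (hsa : ∑ l, a l = (n : ℝ) + 1) (hss : ∑ l, s l = 0)
    (he1 : ∀ l, e l ≤ 1) (heμ : ∀ l, e l ≤ ‖ι l‖) (hμn : ∀ l, ‖ι l‖ ^ 2 ≤ n)
    (hse : (n : ℝ) - 1 ≤ ∑ l, e l) {A B t t' : ℝ}
    (hA : A = (31 / 10) * ((9 / 10) / (n : ℝ)) * ((n : ℝ) - 1))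
    (hB : B = ((9 / 10) / (n : ℝ)) * ((n : ℝ) + 1))
    (htt : t ≤ t')
    (hadm : ∀ l, ι l = 0 → 0 ≤ a l * t - s l) :
    (∑ l with ι l ≠ 0, Real.log (Ph ((a l * t - s l) / ‖ι l‖))) - A * t + B * t ^ 2 / 2
      ≤ (∑ l with ι l ≠ 0, Real.log (Ph ((a l * t' - s l) / ‖ι l‖))) - A * t' + B * t' ^ 2 / 2 := by
  classical
  have hmono : MonotoneOn (fun τ => ∑ l with ι l ≠ 0, Real.log (Ph ((a l * τ - s l) / ‖ι l‖)) - A * τ + B * τ ^ 2 / 2)
      (Set.Ici t) := by
    refine monotoneOn_of_deriv_nonneg (convex_Ici t) ?_ ?_ ?_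
    · exact fun τ _ => (hasDerivAt_logsum ι a s A B τ).continuousAt.continuousWithinAt
    · exact fun τ _ => (hasDerivAt_logsum ι a s A B τ).differentiableAt.differentiableWithinAt
    · intro τ hτ
      rw [interior_Ici] at hτ
      rw [(hasDerivAt_logsum ι a s A B τ).deriv]
      have h1 := hazard_sum hn ι a s e ha hsa hss he1 heμ hμn hse τ (by
        intro l hl
        have h2 := hadm l hl
        have h3 : a l * t ≤ a l * τ :=
          mul_le_mul_of_nonneg_left (le_of_lt hτ) (by linarith [ha l])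
        linarith)
      rw [← hA, ← hB] at h1
      linarith
  exact hmono (Set.mem_Ici.mpr le_rfl) (Set.mem_Ici.mpr htt) htt

/-- The core inequality. -/
theorem core_J (hn : 40 ≤ n) (ι : Fin n → E d) (a s e : Fin n → ℝ)
    (hι : ∀ l m, l ≠ m → (inner ℝ (ι l) (ι m) : ℝ) ≤ 0) (hsum : ∑ l, ι l = 0)
    (ha : ∀ l, 1 ≤ a l) (hsa : ∑ l, a l = (n : ℝ) + 1) (hss : ∑ l, s l = 0)
    (he1 : ∀ l, e l ≤ 1) (heμ : ∀ l, e l ≤ ‖ι l‖) (hμn : ∀ l, ‖ι l‖ ^ 2 ≤ n)
    (hse : (n : ℝ) - 1 ≤ ∑ l, e l) :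
    0 ≤ ∫ t, (t - Real.sqrt 2) * QQ ι (fun l => a l * t - s l) ∂(gaussianReal 0 1) := by
  classical
  have hn' : (40 : ℝ) ≤ n := by exact_mod_cast hn
  have hnpos : (0 : ℝ) < n := by linarith
  set A : ℝ := (31 / 10) * ((9 / 10) / (n : ℝ)) * ((n : ℝ) - 1) with hA
  set B : ℝ := ((9 / 10) / (n : ℝ)) * ((n : ℝ) + 1) with hB
  have hB0 : 0 ≤ B := by positivity
  have hθ : 0 < Real.sqrt 2 := Real.sqrt_pos.mpr (by norm_num)
  have hAB : Real.sqrt 2 * (1 + B) ≤ A := by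
    have hs : Real.sqrt 2 ≤ 14143 / 10000 := by
      rw [Real.sqrt_le_left (by norm_num)]
      norm_num
    have h1 : 1 + B = (1.9 * n + 0.9) / n := by
      rw [hB]; field_simp; ring
    have h2 : A = 2.79 * (n - 1) / n := by
      rw [hA]; field_simp; ring
    rw [h1, h2, ← mul_div_assoc]
    refine div_le_div_of_nonneg_right ?_ hnpos.le
    have h3 : 0 ≤ 1.9 * (n : ℝ) + 0.9 := by positivity
    have h4 : Real.sqrt 2 * (1.9 * (n : ℝ) + 0.9) ≤ 14143 / 10000 * (1.9 * (n : ℝ) + 0.9) :=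
      mul_le_mul_of_nonneg_right hs h3
    norm_num at h4 ⊢
    nlinarith
  refine cheb hθ hB0 hAB (fun t => QQ ι (fun l => a l * t - s l)) (fun t => QQ_nonneg _ _)
    (fun t => measureReal_le_one) ?_ ?_ ?_
  · intro t t' htt
    exact QQ_mono ι (fun l => by nlinarith [ha l])
  · intro t ht
    have hempty : {x : E d | ∀ l, (inner ℝ x (ι l) : ℝ) ≤ a l * t - s l} = ∅ := by
      ext x
      simp only [Set.mem_ofPred_eq, Set.mem_empty_iff_false, iff_false, not_forall, not_le]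
      by_contra hcon
      push Not at hcon
      have h1 : ∑ l, (inner ℝ x (ι l) : ℝ) ≤ ∑ l, (a l * t - s l) := Finset.sum_le_sum (fun l _ => hcon l)
      rw [← inner_sum, hsum, inner_zero_right, Finset.sum_sub_distrib, ← Finset.sum_mul, hsa, hss] at h1
      nlinarith
    simp only [QQ, hempty]
    simp
  · intro t t' ht htt
    set f : ℝ → ℝ := fun t => QQ ι (fun l => a l * t - s l) with hf
    have hf0 : ∀ t, 0 ≤ f t := fun t => QQ_nonneg _ _
    change f t * Real.exp (-A * t + B * t ^ 2 / 2) ≤ f t' * Real.exp (-A * t' + B * t' ^ 2 / 2)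
    by_cases hft : f t = 0
    · rw [hft, zero_mul]
      exact mul_nonneg (hf0 _) (Real.exp_pos _).le
    have hftpos : 0 < f t := lt_of_le_of_ne (hf0 t) (Ne.symm hft)
    -- admissibility
    have hadm : ∀ l, ι l = 0 → 0 ≤ a l * t - s l := by
      intro l hl
      by_contra hlt
      push Not at hlt
      apply hft
      have hempty : {x : E d | ∀ l, (inner ℝ x (ι l) : ℝ) ≤ a l * t - s l} = ∅ := by
        ext x
        simp only [Set.mem_ofPred_eq, Set.mem_empty_iff_false, iff_false, not_forall, not_le]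
        exact ⟨l, by rw [hl, inner_zero_right]; exact hlt⟩
      simp only [hf, QQ, hempty]
      simp
    have hch := QQ_chain ι hι (fun l => a l * t - s l) (fun l => a l * t' - s l)
      (fun l => by nlinarith [ha l])
    have hmono := ratio_mono hn ι a s e ha hsa hss he1 heμ hμn hse hA hB htt hadm
    -- pass to products
    set P : ℝ := ∏ l with ι l ≠ 0, Ph ((a l * t - s l) / ‖ι l‖) with hP
    set P' : ℝ := ∏ l with ι l ≠ 0, Ph ((a l * t' - s l) / ‖ι l‖) with hP'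
    have hPpos : 0 < P := Finset.prod_pos (fun l _ => Ph_pos _)
    have hPpos' : 0 < P' := Finset.prod_pos (fun l _ => Ph_pos _)
    have hlog : ∀ τ : ℝ, ∑ l with ι l ≠ 0, Real.log (Ph ((a l * τ - s l) / ‖ι l‖))
        = Real.log (∏ l with ι l ≠ 0, Ph ((a l * τ - s l) / ‖ι l‖)) := by
      intro τ
      rw [Real.log_prod (fun l _ => (Ph_pos _).ne')]
    rw [hlog t, hlog t', ← hP, ← hP'] at hmono
    have hexp : P * Real.exp (-A * t + B * t ^ 2 / 2) ≤ P' * Real.exp (-A * t' + B * t' ^ 2 / 2) := by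
      have h1 := Real.exp_le_exp.mpr hmono
      have e1 : ∀ (Q : ℝ) (τ : ℝ), 0 < Q → Real.exp (Real.log Q - A * τ + B * τ ^ 2 / 2)
          = Q * Real.exp (-A * τ + B * τ ^ 2 / 2) := by
        intro Q τ hQ
        rw [show Real.log Q - A * τ + B * τ ^ 2 / 2 = Real.log Q + (-A * τ + B * τ ^ 2 / 2) by ring,
          Real.exp_add, Real.exp_log hQ]
      rwa [e1 _ _ hPpos, e1 _ _ hPpos'] at h1
    have hch' : f t * P' ≤ f t' * P := hch
    -- conclude
    set E1 := Real.exp (-A * t + B * t ^ 2 / 2)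
    set E2 := Real.exp (-A * t' + B * t' ^ 2 / 2)
    have hE2 : 0 < E2 := Real.exp_pos _
    have h2 : f t * (P * E1) ≤ f t * (P' * E2) := mul_le_mul_of_nonneg_left hexp hftpos.le
    have h3 : f t * P' * E2 ≤ f t' * P * E2 := mul_le_mul_of_nonneg_right hch' hE2.le
    have h4 : P * (f t * E1) ≤ P * (f t' * E2) := by nlinarith
    exact le_of_mul_le_mul_left h4 hPpos

end Vale.Agent.Lib.P226
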