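import Vale.Agent.Lib.P226R.Defs

/-!
Decomposition of a Laplacian Gram matrix: a centred pairwise obtuse family has Gram matrix which
splits as the sum of two Laplacian Gram matrices, the first one having bounded entries.
-/

open MeasureTheory ProbabilityTheory Matrix
open scoped MatrixOrder

namespace Vale.Agent.Lib.P226

variable {d n : ℕ}

/-- A positive semidefinite real matrix is a Gram matrix of vectors in `E n`. -/
theorem exists_gram_of_posSemidef (M : Matrix (Fin n) (Fin n) ℝ) (hM : M.PosSemidef) :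
    ∃ v : Fin n → E n, ∀ l m, (inner ℝ (v l) (v m) : ℝ) = M l m := by
  have hM0 : 0 ≤ M := Matrix.nonneg_iff_posSemidef.mpr hM
  let B : Matrix (Fin n) (Fin n) ℝ := CFC.sqrt M
  have hB : B * B = M := CFC.sqrt_mul_sqrt_self M hM0
  have hBs : Bᵀ = B := by
    have h1 : IsSelfAdjoint B := (CFC.sqrt_nonneg M).isSelfAdjoint
    have h2 : star B = B := h1
    rw [Matrix.star_eq_conjTranspose, Matrix.conjTranspose_eq_transpose_of_trivial] at h2
    exact h2
  refine ⟨fun l => (EuclideanSpace.equiv (Fin n) ℝ).symm (fun k => B k l), ?_⟩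
  intro l m
  rw [← hB]
  simp only [PiLp.inner_apply, Matrix.mul_apply, RCLike.inner_apply, conj_trivial]
  have : ∀ k, B l k = B k l := by
    intro k
    have := congrFun (congrFun hBs l) k
    simpa [Matrix.transpose_apply] using this.symm
  simp [this, mul_comm]

/-- The Laplacian of a weight function. -/
noncomputable def lapM (W : Fin n → Fin n → ℝ) : Matrix (Fin n) (Fin n) ℝ :=
  Matrix.of fun l m => (if l = m then ∑ k, W l k else 0) - W l m

theorem lapM_apply (W : Fin n → Fin n → ℝ) (l m : Fin n) :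
    lapM W l m = (if l = m then ∑ k, W l k else 0) - W l m := rfl

/-- A Laplacian with nonnegative symmetric weights is positive semidefinite. -/
theorem lapM_posSemidef (W : Fin n → Fin n → ℝ) (hsym : ∀ l m, W l m = W m l)
    (hnn : ∀ l m, 0 ≤ W l m) : (lapM W).PosSemidef := by
  refine Matrix.PosSemidef.of_dotProduct_mulVec_nonneg ?_ ?_
  · ext l m
    simp only [Matrix.conjTranspose_apply, star_trivial, lapM_apply]
    by_cases h : l = m
    · subst h; simp
    · have h' : m ≠ l := fun e => h e.symm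
      simp [h, h', hsym l m]
  · intro x
    have key : star x ⬝ᵥ (lapM W *ᵥ x)
        = (1 / 2) * ∑ l, ∑ m, W l m * (x l - x m) ^ 2 := by
      simp only [dotProduct, mulVec, star_trivial, Pi.star_apply, lapM_apply, sub_mul, ite_mul,
        zero_mul, Finset.sum_sub_distrib, Finset.sum_ite_eq, Finset.mem_univ, if_true]
      have e1 : ∑ l, ∑ m, W l m * (x l - x m) ^ 2
          = ∑ l, ∑ m, W l m * x l ^ 2 + ∑ l, ∑ m, W l m * x m ^ 2
            - 2 * ∑ l, ∑ m, W l m * (x l * x m) := by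
        rw [Finset.mul_sum, ← Finset.sum_add_distrib, ← Finset.sum_sub_distrib]
        apply Finset.sum_congr rfl
        intro l _
        rw [Finset.mul_sum, ← Finset.sum_add_distrib, ← Finset.sum_sub_distrib]
        apply Finset.sum_congr rfl
        intro m _
        ring
      have e2 : ∑ l, ∑ m, W l m * x m ^ 2 = ∑ l, ∑ m, W l m * x l ^ 2 := by
        rw [Finset.sum_comm]
        apply Finset.sum_congr rfl
        intro l _
        apply Finset.sum_congr rfl
        intro m _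
        rw [hsym]
      rw [e1, e2]
      have e3 : ∑ l, x l * ((∑ k, W l k) * x l - ∑ m, W l m * x m)
          = ∑ l, ∑ m, W l m * x l ^ 2 - ∑ l, ∑ m, W l m * (x l * x m) := by
        rw [← Finset.sum_sub_distrib]
        apply Finset.sum_congr rfl
        intro l _
        rw [Finset.sum_mul, mul_sub, Finset.mul_sum, Finset.mul_sum, ← Finset.sum_sub_distrib,
          ← Finset.sum_sub_distrib]
        apply Finset.sum_congr rfl
        intro m _
        ring
      rw [e3]
      ring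
    rw [key]
    have : 0 ≤ ∑ l, ∑ m, W l m * (x l - x m) ^ 2 :=
      Finset.sum_nonneg fun l _ => Finset.sum_nonneg fun m _ =>
        mul_nonneg (hnn l m) (sq_nonneg _)
    positivity

/-- Gram realization of a Laplacian, with its basic properties. -/
theorem exists_lap_gram (W : Fin n → Fin n → ℝ) (hsym : ∀ l m, W l m = W m l)
    (hnn : ∀ l m, 0 ≤ W l m) :
    ∃ v : Fin n → E n, (∀ l m, (inner ℝ (v l) (v m) : ℝ) = (if l = m then ∑ k, W l k else 0) - W l m)
      ∧ ∑ l, v l = 0 := by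
  obtain ⟨v, hv⟩ := exists_gram_of_posSemidef (lapM W) (lapM_posSemidef W hsym hnn)
  refine ⟨v, fun l m => by rw [hv, lapM_apply], ?_⟩
  have h0 : (inner ℝ (∑ l, v l) (∑ l, v l) : ℝ) = 0 := by
    simp only [sum_inner, inner_sum, hv, lapM_apply]
    apply Finset.sum_eq_zero
    intro l _
    rw [Finset.sum_sub_distrib]
    simp only [Finset.sum_ite_eq', Finset.mem_univ, if_true]
    rw [sub_eq_zero]
    exact Finset.sum_congr rfl fun k _ => hsym l k
  exact inner_self_eq_zero.mp h0

theorem decomp (u : Fin n → E d) (hsum : ∑ l, u l = 0)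
    (hobt : ∀ l m, l ≠ m → (inner ℝ (u l) (u m) : ℝ) ≤ 0) :
    ∃ ι o : Fin n → E n, (∀ l m, (inner ℝ (u l) (u m) : ℝ) = inner ℝ (ι l) (ι m) + inner ℝ (o l) (o m)) ∧
      (∀ l m, l ≠ m → (inner ℝ (ι l) (ι m) : ℝ) ≤ 0) ∧ ∑ l, ι l = 0 ∧ ∑ l, o l = 0 ∧
      (∀ l, ‖ι l‖ ^ 2 ≤ n) ∧ (∀ l, min (‖u l‖ ^ 2) 1 ≤ ‖ι l‖ ^ 2) := by
  classical
  -- the weights of the Gram matrix
  let h : Fin n → Fin n → ℝ := fun l m => if l = m then 0 else - inner ℝ (u l) (u m)
  have hsym : ∀ l m, h l m = h m l := by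
    intro l m
    by_cases e : l = m
    · subst e; rfl
    · have e' : m ≠ l := fun e'' => e e''.symm
      simp only [h, e, e', if_false, real_inner_comm]
  have hnn : ∀ l m, 0 ≤ h l m := by
    intro l m
    by_cases e : l = m
    · simp [h, e]
    · simp only [h, e, if_false]
      linarith [hobt l m e]
  have hdiag : ∀ l, h l l = 0 := fun l => by simp [h]
  have hsumh : ∀ l, ∑ k, h l k = ‖u l‖ ^ 2 := by
    intro l
    have h0 : ∑ k, (inner ℝ (u l) (u k) : ℝ) = 0 := by
      rw [← inner_sum, hsum, inner_zero_right]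
    have h1 : ∀ k, h l k = (if l = k then (inner ℝ (u l) (u l) : ℝ) else 0) - inner ℝ (u l) (u k) := by
      intro k
      by_cases e : l = k
      · subst e; simp [h]
      · simp [h, e]
    simp_rw [h1]
    rw [Finset.sum_sub_distrib, h0]
    simp
  have hle : ∀ l k, h l k ≤ ‖u l‖ ^ 2 := by
    intro l k
    rw [← hsumh]
    exact Finset.single_le_sum (f := fun k => h l k) (fun i _ => hnn l i) (Finset.mem_univ k)
  -- the truncation factors
  let ρ : Fin n → ℝ := fun l => min 1 (‖u l‖ ^ 2)⁻¹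
  have hρ0 : ∀ l, 0 ≤ ρ l := fun l => le_min zero_le_one (by positivity)
  have hρ1 : ∀ l, ρ l ≤ 1 := fun l => min_le_left _ _
  have hρs : ∀ l, ρ l * ‖u l‖ ^ 2 ≤ 1 := by
    intro l
    by_cases e : ‖u l‖ ^ 2 = 0
    · rw [e]; simp
    · have hp : 0 < ‖u l‖ ^ 2 := lt_of_le_of_ne (by positivity) (Ne.symm e)
      calc ρ l * ‖u l‖ ^ 2 ≤ (‖u l‖ ^ 2)⁻¹ * ‖u l‖ ^ 2 :=
            mul_le_mul_of_nonneg_right (min_le_right _ _) hp.le
        _ = 1 := inv_mul_cancel₀ e
  have hρm : ∀ l, min (‖u l‖ ^ 2) 1 ≤ ρ l * ‖u l‖ ^ 2 := by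
    intro l
    by_cases e : ‖u l‖ ^ 2 = 0
    · rw [e]; simp
    · have hp : 0 < ‖u l‖ ^ 2 := lt_of_le_of_ne (by positivity) (Ne.symm e)
      by_cases hc : ‖u l‖ ^ 2 ≤ 1
      · have : ρ l = 1 := by
          apply min_eq_left
          exact (one_le_inv₀ hp).mpr hc
        rw [this, one_mul]
        exact min_le_left _ _
      · push Not at hc
        have : ρ l = (‖u l‖ ^ 2)⁻¹ := by
          apply min_eq_right
          exact (inv_le_one₀ hp).mpr hc.le
        rw [this, inv_mul_cancel₀ e]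
        exact min_le_right _ _
  -- the two weights
  let ω : Fin n → Fin n → ℝ := fun l m => h l m * max (ρ l) (ρ m)
  have hωsym : ∀ l m, ω l m = ω m l := by
    intro l m
    simp only [ω]
    rw [hsym l m, max_comm]
  have hmax0 : ∀ l m, 0 ≤ max (ρ l) (ρ m) := fun l m => le_max_of_le_left (hρ0 l)
  have hmax1 : ∀ l m, max (ρ l) (ρ m) ≤ 1 := fun l m => max_le (hρ1 l) (hρ1 m)
  have hωnn : ∀ l m, 0 ≤ ω l m := fun l m => mul_nonneg (hnn l m) (hmax0 l m)
  have hω1 : ∀ l m, ω l m ≤ 1 := by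
    intro l m
    simp only [ω]
    rcases max_cases (ρ l) (ρ m) with ⟨e, _⟩ | ⟨e, _⟩
    · rw [e]
      calc h l m * ρ l ≤ ‖u l‖ ^ 2 * ρ l := mul_le_mul_of_nonneg_right (hle l m) (hρ0 l)
        _ = ρ l * ‖u l‖ ^ 2 := mul_comm _ _
        _ ≤ 1 := hρs l
    · rw [e, hsym l m]
      calc h m l * ρ m ≤ ‖u m‖ ^ 2 * ρ m := mul_le_mul_of_nonneg_right (hle m l) (hρ0 m)
        _ = ρ m * ‖u m‖ ^ 2 := mul_comm _ _
        _ ≤ 1 := hρs m
  let τ : Fin n → Fin n → ℝ := fun l m => h l m - ω l m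
  have hτsym : ∀ l m, τ l m = τ m l := by
    intro l m
    simp only [τ]
    rw [hsym l m, hωsym l m]
  have hτnn : ∀ l m, 0 ≤ τ l m := by
    intro l m
    simp only [τ, ω]
    have := mul_le_mul_of_nonneg_left (hmax1 l m) (hnn l m)
    linarith
  obtain ⟨ι, hι, hι0⟩ := exists_lap_gram ω hωsym hωnn
  obtain ⟨o, ho, ho0⟩ := exists_lap_gram τ hτsym hτnn
  have hnorm : ∀ l, ‖ι l‖ ^ 2 = ∑ k, ω l k := by
    intro l
    rw [← real_inner_self_eq_norm_sq, hι]
    simp [ω, hdiag]
  refine ⟨ι, o, ?_, ?_, hι0, ho0, ?_, ?_⟩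
  · intro l m
    rw [hι, ho]
    by_cases e : l = m
    · subst e
      have hs : ∑ k, τ l k = ∑ k, h l k - ∑ k, ω l k := by
        simp only [τ, Finset.sum_sub_distrib]
      simp only [if_true]
      rw [hs, hsumh, real_inner_self_eq_norm_sq]
      simp only [τ, ω, hdiag]
      ring
    · simp only [e, if_false, τ]
      simp only [h, e, if_false]
      ring
  · intro l m e
    rw [hι]
    simp only [e, if_false]
    linarith [hωnn l m]
  · intro l
    rw [hnorm]
    calc ∑ k, ω l k ≤ ∑ _k : Fin n, (1 : ℝ) := Finset.sum_le_sum fun k _ => hω1 l k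
      _ = n := by simp
  · intro l
    rw [hnorm]
    calc min (‖u l‖ ^ 2) 1 ≤ ρ l * ‖u l‖ ^ 2 := hρm l
      _ = ∑ k, h l k * ρ l := by rw [← hsumh, Finset.mul_sum]; simp [mul_comm]
      _ ≤ ∑ k, ω l k := by
          apply Finset.sum_le_sum
          intro k _
          exact mul_le_mul_of_nonneg_left (le_max_left _ _) (hnn l k)

end Vale.Agent.Lib.P226
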