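import Vale.Agent.Lib.P226.CapBase
import Vale.Agent.Lib.P262.BanGauss

/-!
Definitions for the reduction of the Gaussian propeller problem to finitely many cells.
-/

open MeasureTheory ProbabilityTheory

namespace Vale.Agent.Lib.P226

/-- Partition bound with a general constant: every measurable partition into `k` cells of every
`ℝ^d` has `∑ |z(A_i)|² ≤ c`. -/
def PBc (k : ℕ) (c : ℝ) : Prop :=
  ∀ (d : ℕ) (A : Fin k → Set (E d)), IsPart A → FF A ≤ c

variable {d n : ℕ}

/-- closed cell of the vertex `y0` among `v`. -/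
def cellC (y0 : E d) (v : Fin n → E d) : Set (E d) :=
  {x | ∀ l, inner ℝ x (v l) ≤ (inner ℝ x y0 : ℝ)}

/-- open cell of the vertex `y0` among `v`. -/
def cellO (y0 : E d) (v : Fin n → E d) : Set (E d) :=
  {x | ∀ l, inner ℝ x (v l) < (inner ℝ x y0 : ℝ)}

/-- the standard normal distribution function -/
noncomputable def Ph (x : ℝ) : ℝ := (gaussianReal 0 1).real (Set.Iic x)

/-- the standard normal density -/
noncomputable def ph (x : ℝ) : ℝ := gaussianPDFReal 0 1 x

/-- the reversed hazard rate `φ/Φ` -/
noncomputable def eta (x : ℝ) : ℝ := ph x / Ph x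

/-- the Gaussian measure of an intersection of half spaces -/
noncomputable def QQ (ι : Fin n → E d) (b : Fin n → ℝ) : ℝ :=
  (gam d).real {x | ∀ l, (inner ℝ x (ι l) : ℝ) ≤ b l}

end Vale.Agent.Lib.P226
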