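import Vale.Agent.Lib.P226R.Core
import Vale.Agent.Lib.P226R.Decomp

/-! The KL inequality, from the core inequality, the Gram decomposition and the law splitting. -/

open MeasureTheory ProbabilityTheory

namespace Vale.Agent.Lib.P226

variable {d n : ℕ}

/-- The test function on coordinates -/
noncomputable def FKL (n : ℕ) (z : Fin (n + 1) → ℝ) : ℝ :=
  if ∀ l : Fin n, z l.succ ≤ z 0 then z 0 - Real.sqrt 2 else 0

theorem measurable_FKL (n : ℕ) : Measurable (FKL n) := by
  unfold FKL
  refine Measurable.ite ?_ (by fun_prop) measurable_const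
  have : {z : Fin (n + 1) → ℝ | ∀ l : Fin n, z l.succ ≤ z 0} = ⋂ l : Fin n, {z | z l.succ ≤ z 0} := by
    ext z; simp
  rw [this]
  exact MeasurableSet.iInter (fun l => measurableSet_le (by fun_prop) (by fun_prop))

theorem abs_FKL_le (n : ℕ) (z : Fin (n + 1) → ℝ) (t : ℝ) (hz : z 0 = t) :
    |FKL n z| ≤ |t| + Real.sqrt 2 := by
  unfold FKL
  have hs : 0 ≤ Real.sqrt 2 := Real.sqrt_nonneg 2
  split_ifs
  · rw [hz]
    refine (abs_sub _ _).trans ?_
    rw [abs_of_nonneg hs]
  · simp only [abs_zero]
    positivity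

theorem integrable_abs_t (n : ℕ) :
    Integrable (fun q : E n × ℝ => |q.2|) ((gam n).prod (gaussianReal 0 1)) := by
  have h : Integrable (fun t : ℝ => |t|) (gaussianReal 0 1) :=
    (IsGaussian.integrable_id (μ := gaussianReal 0 1)).abs
  exact h.comp_snd (gam n)

theorem abs_le_of_sq_le_sq {a b : ℝ} (h : a ^ 2 ≤ b ^ 2) (hb : 0 ≤ b) : |a| ≤ b :=
  abs_le_of_sq_le_sq' h hb |> abs_le.mpr

/-- Normalized form of the KL inequality. -/
theorem KL_norm (hn : 40 ≤ n) (e : E d) (w : Fin n → E d) (he : ‖e‖ = 1)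
    (hsum : e + ∑ l, w l = 0)
    (h0l : ∀ l, (inner ℝ e (w l) : ℝ) ≤ 0)
    (hvv : ∀ l m, l ≠ m → (inner ℝ (w l) (w m) : ℝ) ≤ 0)
    (hmin : ∀ l, 1 ≤ ‖w l‖) :
    0 ≤ ∫ x, FKL n (Fin.cons (inner ℝ x e) (fun l => inner ℝ x (w l))) ∂(gam d) := by
  classical
  have hee : (inner ℝ e e : ℝ) = 1 := by rw [real_inner_self_eq_norm_sq, he]; norm_num
  set h : Fin n → ℝ := fun l => -(inner ℝ e (w l) : ℝ) with hh
  have hh0 : ∀ l, 0 ≤ h l := fun l => by simp only [hh]; linarith [h0l l]
  have hsumw : ∑ l, w l = -e := eq_neg_of_add_eq_zero_right hsum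
  have hsh : ∑ l, h l = 1 := by
    simp only [hh]
    rw [Finset.sum_neg_distrib, ← inner_sum, hsumw, inner_neg_right, hee]
    ring
  set u : Fin n → E d := fun l => w l + h l • e with hu
  have hinu : ∀ l m, (inner ℝ (u l) (u m) : ℝ) = inner ℝ (w l) (w m) - h l * h m := by
    intro l m
    simp only [hu, inner_add_left, inner_add_right, real_inner_smul_left, real_inner_smul_right, hee]
    have e1 : (inner ℝ e (w m) : ℝ) = - h m := by simp [hh]
    have e2 : (inner ℝ (w l) e : ℝ) = - h l := by rw [real_inner_comm]; simp [hh]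
    rw [e1, e2]
    ring
  have hsumu : ∑ l, u l = 0 := by
    simp only [hu]
    rw [Finset.sum_add_distrib, hsumw, ← Finset.sum_smul, hsh]
    simp
  have hobtu : ∀ l m, l ≠ m → (inner ℝ (u l) (u m) : ℝ) ≤ 0 := by
    intro l m hlm
    rw [hinu]
    nlinarith [hvv l m hlm, mul_nonneg (hh0 l) (hh0 m)]
  obtain ⟨ι, o, hgram, hιobt, hsι, hso, hμn, hμlow⟩ := decomp u hsumu hobtu
  -- the law
  let W' : Fin (n + 1) → E d := Fin.cons e w
  let a' : Fin (n + 1) → E n := Fin.cons 0 ι
  let b' : Fin (n + 1) → E n := Fin.cons 0 o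
  let c' : Fin (n + 1) → ℝ := Fin.cons 1 (fun l => - h l)
  have hG : ∀ i j, (inner ℝ (W' i) (W' j) : ℝ) = inner ℝ (a' i) (a' j) + inner ℝ (b' i) (b' j) + c' i * c' j := by
    intro i j
    refine Fin.cases ?_ (fun l => ?_) i
    · refine Fin.cases ?_ (fun m => ?_) j
      · simp [W', a', b', c', he]
      · simp [W', a', b', c', hh]
    · refine Fin.cases ?_ (fun m => ?_) j
      · simp [W', a', b', c', hh, real_inner_comm]
      · simp only [W', a', b', c', Fin.cons_succ]
        have := hinu l m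
        rw [hgram l m] at this
        linarith [mul_comm (h l) (h m)]
  have hfun : (fun x : E d => FKL n (Fin.cons (inner ℝ x e) (fun l => inner ℝ x (w l))))
      = fun x => FKL n (fun i => inner ℝ x (W' i)) := by
    ext x
    congr 1
    ext i
    refine Fin.cases ?_ (fun l => ?_) i <;> simp [W']
  rw [hfun, integral_split2 W' a' b' c' hG (FKL n) (measurable_FKL n)]
  -- integrability
  have hmeas : Measurable (fun p : E n × (E n × ℝ) =>
      FKL n (fun i => inner ℝ p.2.1 (a' i) + inner ℝ p.1 (b' i) + p.2.2 * c' i)) := by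
    refine (measurable_FKL n).comp ?_
    refine measurable_pi_iff.mpr (fun i => ?_)
    fun_prop
  have hint : Integrable (fun p : E n × (E n × ℝ) =>
      FKL n (fun i => inner ℝ p.2.1 (a' i) + inner ℝ p.1 (b' i) + p.2.2 * c' i))
      ((gam n).prod ((gam n).prod (gaussianReal 0 1))) := by
    have hg : Integrable (fun p : E n × (E n × ℝ) => |p.2.2| + Real.sqrt 2)
        ((gam n).prod ((gam n).prod (gaussianReal 0 1))) := by
      refine Integrable.add ?_ (integrable_const _)
      exact (integrable_abs_t n).comp_snd (gam n)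
    refine hg.mono' hmeas.aestronglyMeasurable (Filter.Eventually.of_forall fun p => ?_)
    rw [Real.norm_eq_abs]
    exact abs_FKL_le n _ _ (by simp [a', b', c'])
  rw [integral_prod _ hint]
  refine integral_nonneg (fun x₂ => ?_)
  set a : Fin n → ℝ := fun l => 1 + h l with ha
  set s : Fin n → ℝ := fun l => inner ℝ x₂ (o l) with hs
  have hcond : ∀ (x₁ : E n) (t : ℝ), FKL n (fun i => inner ℝ x₁ (a' i) + inner ℝ x₂ (b' i) + t * c' i)
      = {x : E n | ∀ l, (inner ℝ x (ι l) : ℝ) ≤ a l * t - s l}.indicator (fun _ => t - Real.sqrt 2) x₁ := by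
    intro x₁ t
    have h0 : inner ℝ x₁ (a' 0) + inner ℝ x₂ (b' 0) + t * c' 0 = t := by simp [a', b', c']
    have h1 : ∀ l : Fin n, inner ℝ x₁ (a' l.succ) + inner ℝ x₂ (b' l.succ) + t * c' l.succ
        = inner ℝ x₁ (ι l) + s l - t * h l := by
      intro l
      simp [a', b', c', hs]
      ring
    unfold FKL
    simp only [h0, h1]
    by_cases hc : ∀ l : Fin n, (inner ℝ x₁ (ι l) : ℝ) ≤ a l * t - s l
    · rw [Set.indicator_of_mem (by exact hc), if_pos]
      intro l
      have := hc l
      simp only [ha] at this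
      linarith
    · rw [Set.indicator_of_notMem (by exact hc), if_neg]
      intro hc2
      apply hc
      intro l
      have := hc2 l
      simp only [ha]
      linarith
  have hint2 : Integrable (fun p : E n × ℝ =>
      FKL n (fun i => inner ℝ p.1 (a' i) + inner ℝ x₂ (b' i) + p.2 * c' i))
      ((gam n).prod (gaussianReal 0 1)) := by
    have hm2 : Measurable (fun p : E n × ℝ =>
        FKL n (fun i => inner ℝ p.1 (a' i) + inner ℝ x₂ (b' i) + p.2 * c' i)) := by
      refine (measurable_FKL n).comp ?_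
      refine measurable_pi_iff.mpr (fun i => ?_)
      fun_prop
    have hg : Integrable (fun p : E n × ℝ => |p.2| + Real.sqrt 2) ((gam n).prod (gaussianReal 0 1)) :=
      (integrable_abs_t n).add (integrable_const _)
    refine hg.mono' hm2.aestronglyMeasurable (Filter.Eventually.of_forall fun p => ?_)
    rw [Real.norm_eq_abs]
    exact abs_FKL_le n _ _ (by simp [a', b', c'])
  have key : ∫ y : E n × ℝ, FKL n (fun i => inner ℝ y.1 (a' i) + inner ℝ x₂ (b' i) + y.2 * c' i)
        ∂((gam n).prod (gaussianReal 0 1))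
      = ∫ t, (t - Real.sqrt 2) * QQ ι (fun l => a l * t - s l) ∂(gaussianReal 0 1) := by
    rw [integral_prod_symm _ hint2]
    refine integral_congr_ae (Filter.Eventually.of_forall fun t => ?_)
    simp only [hcond]
    have hS : MeasurableSet {x : E n | ∀ l, (inner ℝ x (ι l) : ℝ) ≤ a l * t - s l} := by
      have : {x : E n | ∀ l, (inner ℝ x (ι l) : ℝ) ≤ a l * t - s l}
          = ⋂ l, {x : E n | (inner ℝ x (ι l) : ℝ) ≤ a l * t - s l} := by
        ext x; simp
      rw [this]
      exact MeasurableSet.iInter (fun l => measurableSet_le (by fun_prop) measurable_const)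
    rw [integral_indicator_const _ hS, QQ, smul_eq_mul, mul_comm]
  have hnorm : ∀ l, (1 - h l) ^ 2 ≤ 1 - h l ^ 2 ∨ 1 ≤ h l := by
    intro l
    by_cases hl : 1 ≤ h l
    · exact Or.inr hl
    · left
      have := hh0 l
      push Not at hl
      nlinarith
  have hk := core_J hn ι a s (fun l => 1 - h l) hιobt hsι (fun l => by simp only [ha]; linarith [hh0 l])
    (by simp only [ha]; rw [Finset.sum_add_distrib, hsh]; simp)
    (by simp only [hs]; rw [← inner_sum, hso, inner_zero_right])
    (fun l => by linarith [hh0 l])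
    (fun l => by
      rcases hnorm l with h1 | h1
      · have hu2 : 1 - h l ^ 2 ≤ ‖u l‖ ^ 2 := by
          rw [← real_inner_self_eq_norm_sq, hinu, real_inner_self_eq_norm_sq]
          have := hmin l
          nlinarith
        have hu3 : 1 - h l ^ 2 ≤ min (‖u l‖ ^ 2) 1 := le_min hu2 (by nlinarith [sq_nonneg (h l)])
        have h5 := hμlow l
        have h6 : (1 - h l) ^ 2 ≤ ‖ι l‖ ^ 2 := by linarith
        exact le_of_abs_le (abs_le_of_sq_le_sq h6 (norm_nonneg _))
      · have := norm_nonneg (ι l)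
        linarith)
    hμn
    (by rw [Finset.sum_sub_distrib, hsh]; simp)
  have := key
  simp only at this ⊢
  rw [this]
  exact hk

/-- The KL inequality. -/
theorem KL (hn : 40 ≤ n) (y0 : E d) (v : Fin n → E d) (h0 : y0 ≠ 0)
    (hsum : y0 + ∑ l, v l = 0)
    (h0l : ∀ l, (inner ℝ y0 (v l) : ℝ) ≤ 0)
    (hvv : ∀ l m, l ≠ m → (inner ℝ (v l) (v m) : ℝ) ≤ 0)
    (hmin : ∀ l, ‖y0‖ ≤ ‖v l‖) :
    Real.sqrt 2 * ‖y0‖ * (gam d).real (cellC y0 v) ≤ ∫ x in cellC y0 v, (inner ℝ x y0 : ℝ) ∂(gam d) := by
  classical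
  have hr : 0 < ‖y0‖ := norm_pos_iff.mpr h0
  set r := ‖y0‖ with hrdef
  have hr' : r ≠ 0 := hr.ne'
  set e : E d := (1 / r) • y0 with he
  set w : Fin n → E d := fun l => (1 / r) • v l with hw
  have hne : ‖e‖ = 1 := by
    rw [he, norm_smul, Real.norm_eq_abs, abs_of_pos (by positivity), ← hrdef]
    field_simp
  have hk := KL_norm hn e w hne
    (by
      simp only [he, hw]
      rw [← Finset.smul_sum, ← smul_add, hsum, smul_zero])
    (fun l => by
      simp only [he, hw, real_inner_smul_left, real_inner_smul_right]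
      have := h0l l
      have h1 : 0 ≤ 1 / r := by positivity
      nlinarith [mul_nonneg (mul_nonneg h1 h1) (neg_nonneg.mpr this)])
    (fun l m hlm => by
      simp only [hw, real_inner_smul_left, real_inner_smul_right]
      have := hvv l m hlm
      have h1 : 0 ≤ 1 / r := by positivity
      nlinarith [mul_nonneg (mul_nonneg h1 h1) (neg_nonneg.mpr this)])
    (fun l => by
      simp only [hw]
      rw [norm_smul, Real.norm_eq_abs, abs_of_pos (by positivity)]
      have := hmin l
      rw [div_mul_eq_mul_div, one_mul, le_div_iff₀ hr]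
      linarith)
  -- rewrite as a set integral
  have hC : MeasurableSet (cellC y0 v) := by
    have : cellC y0 v = ⋂ l, {x : E d | (inner ℝ x (v l) : ℝ) ≤ inner ℝ x y0} := by
      ext x; simp [cellC]
    rw [this]
    exact MeasurableSet.iInter (fun l => measurableSet_le (by fun_prop) (by fun_prop))
  have hfun : (fun x : E d => FKL n (Fin.cons (inner ℝ x e) (fun l => inner ℝ x (w l))))
      = (cellC y0 v).indicator (fun x => (1 / r) * inner ℝ x y0 - Real.sqrt 2) := by
    ext x
    unfold FKL
    simp only [Fin.cons_zero, Fin.cons_succ, he, hw, real_inner_smul_right]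
    have h1 : 0 < 1 / r := by positivity
    by_cases hx : x ∈ cellC y0 v
    · rw [Set.indicator_of_mem hx, if_pos]
      intro l
      exact mul_le_mul_of_nonneg_left (hx l) h1.le
    · rw [Set.indicator_of_notMem hx, if_neg]
      intro hc
      apply hx
      intro l
      exact le_of_mul_le_mul_left (hc l) h1
  rw [hfun, integral_indicator hC] at hk
  have hI : IntegrableOn (fun x => (inner ℝ x y0 : ℝ)) (cellC y0 v) (gam d) :=
    (integrable_inner_gam y0).integrableOn
  rw [integral_sub (hI.const_mul _) (integrable_const _), integral_const_mul, setIntegral_const,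
    smul_eq_mul] at hk
  have h2 : 0 ≤ r * ((1 / r) * (∫ x in cellC y0 v, (inner ℝ x y0 : ℝ) ∂(gam d))
      - (gam d).real (cellC y0 v) * Real.sqrt 2) :=
    mul_nonneg hr.le hk
  have h3 : r * ((1 / r) * (∫ x in cellC y0 v, (inner ℝ x y0 : ℝ) ∂(gam d)))
      = ∫ x in cellC y0 v, (inner ℝ x y0 : ℝ) ∂(gam d) := by
    field_simp
  rw [mul_sub, h3] at h2
  nlinarith

end Vale.Agent.Lib.P226
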