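import Vale.Agent.Lib.P226R.Split

/-! Monotone ratio for intersections of obtuse half spaces. -/

open MeasureTheory ProbabilityTheory

namespace Vale.Agent.Lib.P226

variable {d n : ℕ}

/-- One dimensional ratio inequality for up-sets. -/
theorem upset_ratio {C : Set ℝ} (hC : MeasurableSet C) (hup : ∀ t t', t ∈ C → t ≤ t' → t' ∈ C)
    {β β' : ℝ} (hβ : β ≤ β') :
    (gaussianReal 0 1).real (C ∩ Set.Iic β) * Ph β' ≤ (gaussianReal 0 1).real (C ∩ Set.Iic β') * Ph β := by
  by_cases hne : (C ∩ Set.Iic β).Nonempty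
  · obtain ⟨t0, ht0, ht0β⟩ := hne
    have hsub : Set.Ioc β β' ⊆ C := fun t ht => hup t0 t ht0 (le_trans ht0β ht.1.le)
    have hdec : C ∩ Set.Iic β' = (C ∩ Set.Iic β) ∪ Set.Ioc β β' := by
      ext t
      constructor
      · rintro ⟨h1, h2⟩
        by_cases h3 : t ≤ β
        · exact Or.inl ⟨h1, h3⟩
        · exact Or.inr ⟨not_le.mp h3, h2⟩
      · rintro (⟨h1, h2⟩ | h1)
        · exact ⟨h1, le_trans h2 hβ⟩
        · exact ⟨hsub h1, h1.2⟩
    have hdisj : Disjoint (C ∩ Set.Iic β) (Set.Ioc β β') := by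
      refine Set.disjoint_left.mpr (fun t ht ht2 => ?_)
      exact absurd ht.2 (not_le.mpr ht2.1)
    have hIic : Set.Iic β' = Set.Iic β ∪ Set.Ioc β β' := (Set.Iic_union_Ioc_eq_Iic hβ).symm
    have hdisj2 : Disjoint (Set.Iic β) (Set.Ioc β β') := by
      refine Set.disjoint_left.mpr (fun t ht ht2 => ?_)
      exact absurd ht (not_le.mpr ht2.1)
    have e1 : (gaussianReal 0 1).real (C ∩ Set.Iic β')
        = (gaussianReal 0 1).real (C ∩ Set.Iic β) + (gaussianReal 0 1).real (Set.Ioc β β') := by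
      rw [hdec, measureReal_union hdisj measurableSet_Ioc]
    have e2 : Ph β' = Ph β + (gaussianReal 0 1).real (Set.Ioc β β') := by
      unfold Ph
      rw [hIic, measureReal_union hdisj2 measurableSet_Ioc]
    have hle : (gaussianReal 0 1).real (C ∩ Set.Iic β) ≤ Ph β :=
      measureReal_mono Set.inter_subset_right
    rw [e1, e2]
    have h3 : 0 ≤ (gaussianReal 0 1).real (Set.Ioc β β') := measureReal_nonneg
    nlinarith
  · have : C ∩ Set.Iic β = ∅ := Set.not_nonempty_iff_eq_empty.mp hne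
    rw [this]
    simp only [measureReal_empty, zero_mul]
    exact mul_nonneg measureReal_nonneg measureReal_nonneg

/-- the indicator function of a box in coordinates -/
noncomputable def FQ (b : Fin n → ℝ) (z : Fin n → ℝ) : ℝ := if ∀ l, z l ≤ b l then 1 else 0

theorem measurable_FQ (b : Fin n → ℝ) : Measurable (FQ b) := by
  unfold FQ
  refine Measurable.ite ?_ measurable_const measurable_const
  have : {z : Fin n → ℝ | ∀ l, z l ≤ b l} = ⋂ l, {z | z l ≤ b l} := by
    ext z; simp
  rw [this]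
  exact MeasurableSet.iInter (fun l => measurableSet_le (by fun_prop) measurable_const)

theorem measurableSet_box (ι : Fin n → E d) (b : Fin n → ℝ) :
    MeasurableSet {x : E d | ∀ l, (inner ℝ x (ι l) : ℝ) ≤ b l} := by
  have : {x : E d | ∀ l, (inner ℝ x (ι l) : ℝ) ≤ b l} = ⋂ l, {x | (inner ℝ x (ι l) : ℝ) ≤ b l} := by
    ext z; simp
  rw [this]
  exact MeasurableSet.iInter (fun l => measurableSet_le (by fun_prop) measurable_const)

theorem QQ_eq_integral (ι : Fin n → E d) (b : Fin n → ℝ) :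
    QQ ι b = ∫ x, FQ b (fun i => inner ℝ x (ι i)) ∂(gam d) := by
  have : (fun x : E d => FQ b (fun i => inner ℝ x (ι i)))
      = {x : E d | ∀ l, (inner ℝ x (ι l) : ℝ) ≤ b l}.indicator (fun _ => (1 : ℝ)) := by
    ext x
    unfold FQ
    by_cases h : ∀ l, (inner ℝ x (ι l) : ℝ) ≤ b l
    · rw [if_pos h, Set.indicator_of_mem (by exact h)]
    · rw [if_neg h, Set.indicator_of_notMem (by exact h)]
  rw [this, integral_indicator_const _ (measurableSet_box ι b), smul_eq_mul, mul_one, QQ]

/-- The split form of `QQ`. -/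
theorem QQ_split {d₁ : ℕ} (ι : Fin n → E d) (a : Fin n → E d₁) (c : Fin n → ℝ)
    (h : ∀ i j, (inner ℝ (ι i) (ι j) : ℝ) = inner ℝ (a i) (a j) + c i * c j) (b : Fin n → ℝ) :
    QQ ι b = ∫ x, (gaussianReal 0 1).real {t | ∀ l, (inner ℝ x (a l) : ℝ) + t * c l ≤ b l} ∂(gam d₁) := by
  rw [QQ_eq_integral, integral_split1 ι a c h (FQ b) (measurable_FQ b)]
  have hm : Measurable (fun p : E d₁ × ℝ => FQ b (fun i => inner ℝ p.1 (a i) + p.2 * c i)) := by
    refine (measurable_FQ b).comp ?_
    refine measurable_pi_iff.mpr (fun i => ?_)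
    fun_prop
  have hint : Integrable (fun p : E d₁ × ℝ => FQ b (fun i => inner ℝ p.1 (a i) + p.2 * c i))
      ((gam d₁).prod (gaussianReal 0 1)) := by
    refine Integrable.of_bound hm.aestronglyMeasurable 1 (Filter.Eventually.of_forall fun p => ?_)
    unfold FQ
    split_ifs <;> simp
  rw [integral_prod _ hint]
  refine integral_congr_ae (Filter.Eventually.of_forall fun x => ?_)
  have hS : MeasurableSet {t : ℝ | ∀ l, (inner ℝ x (a l) : ℝ) + t * c l ≤ b l} := by
    have : {t : ℝ | ∀ l, (inner ℝ x (a l) : ℝ) + t * c l ≤ b l}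
        = ⋂ l, {t : ℝ | (inner ℝ x (a l) : ℝ) + t * c l ≤ b l} := by
      ext z; simp
    rw [this]
    exact MeasurableSet.iInter (fun l => measurableSet_le (by fun_prop) measurable_const)
  have : (fun t : ℝ => FQ b (fun i => inner ℝ x (a i) + t * c i))
      = {t : ℝ | ∀ l, (inner ℝ x (a l) : ℝ) + t * c l ≤ b l}.indicator (fun _ => (1 : ℝ)) := by
    ext t
    unfold FQ
    by_cases h : ∀ l, (inner ℝ x (a l) : ℝ) + t * c l ≤ b l
    · rw [if_pos h, Set.indicator_of_mem (by exact h)]
    · rw [if_neg h, Set.indicator_of_notMem (by exact h)]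
  simp only [this]
  rw [integral_indicator_const _ hS, smul_eq_mul, mul_one]

theorem integrable_section {d₁ : ℕ} (a : Fin n → E d₁) (c : Fin n → ℝ) (b : Fin n → ℝ) :
    Integrable (fun x => (gaussianReal 0 1).real {t | ∀ l, (inner ℝ x (a l) : ℝ) + t * c l ≤ b l}) (gam d₁) := by
  have hm : Measurable (fun p : E d₁ × ℝ => FQ b (fun i => inner ℝ p.1 (a i) + p.2 * c i)) := by
    refine (measurable_FQ b).comp ?_
    refine measurable_pi_iff.mpr (fun i => ?_)
    fun_prop
  have hint : Integrable (fun p : E d₁ × ℝ => FQ b (fun i => inner ℝ p.1 (a i) + p.2 * c i))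
      ((gam d₁).prod (gaussianReal 0 1)) := by
    refine Integrable.of_bound hm.aestronglyMeasurable 1 (Filter.Eventually.of_forall fun p => ?_)
    unfold FQ
    split_ifs <;> simp
  have h2 := hint.integral_prod_left
  refine h2.congr (Filter.Eventually.of_forall fun x => ?_)
  have hS : MeasurableSet {t : ℝ | ∀ l, (inner ℝ x (a l) : ℝ) + t * c l ≤ b l} := by
    have : {t : ℝ | ∀ l, (inner ℝ x (a l) : ℝ) + t * c l ≤ b l}
        = ⋂ l, {t : ℝ | (inner ℝ x (a l) : ℝ) + t * c l ≤ b l} := by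
      ext z; simp
    rw [this]
    exact MeasurableSet.iInter (fun l => measurableSet_le (by fun_prop) measurable_const)
  have : (fun t : ℝ => FQ b (fun i => inner ℝ x (a i) + t * c i))
      = {t : ℝ | ∀ l, (inner ℝ x (a l) : ℝ) + t * c l ≤ b l}.indicator (fun _ => (1 : ℝ)) := by
    ext t
    unfold FQ
    by_cases h : ∀ l, (inner ℝ x (a l) : ℝ) + t * c l ≤ b l
    · rw [if_pos h, Set.indicator_of_mem (by exact h)]
    · rw [if_neg h, Set.indicator_of_notMem (by exact h)]
  simp only [this]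
  rw [integral_indicator_const _ hS, smul_eq_mul, mul_one]

/-- The monotone ratio lemma. -/
theorem QQ_ratio (ι : Fin n → E d) (hι : ∀ l m, l ≠ m → (inner ℝ (ι l) (ι m) : ℝ) ≤ 0)
    (l : Fin n) (hl : ι l ≠ 0) (b b' : Fin n → ℝ) (hb : b l ≤ b' l)
    (hother : ∀ m, m ≠ l → b m = b' m) :
    QQ ι b * Ph (b' l / ‖ι l‖) ≤ QQ ι b' * Ph (b l / ‖ι l‖) := by
  classical
  have hμ : 0 < ‖ι l‖ := norm_pos_iff.mpr hl
  set μ := ‖ι l‖ with hμdef
  set e : E d := (1 / μ) • ι l with he
  have hee : (inner ℝ e e : ℝ) = 1 := by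
    rw [real_inner_self_eq_norm_sq, he, norm_smul, Real.norm_eq_abs, abs_of_pos (by positivity), ← hμdef]
    field_simp
  set c : Fin n → ℝ := fun m => inner ℝ (ι m) e with hc
  set a : Fin n → E d := fun m => ι m - c m • e with ha
  have hgram : ∀ i j, (inner ℝ (ι i) (ι j) : ℝ) = inner ℝ (a i) (a j) + c i * c j := by
    intro i j
    simp only [ha, inner_sub_left, inner_sub_right, real_inner_smul_left, real_inner_smul_right, hee]
    have e1 : (inner ℝ e (ι j) : ℝ) = c j := by simp only [hc]; exact real_inner_comm _ _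
    rw [e1]
    simp only [hc]
    ring
  have hcl : c l = μ := by
    simp only [hc, he, real_inner_smul_right, real_inner_self_eq_norm_sq, ← hμdef]
    field_simp
  have hal : a l = 0 := by
    simp only [ha]
    rw [hcl, he, smul_smul]
    have : μ * (1 / μ) = 1 := by field_simp
    rw [this, one_smul, sub_self]
  have hcm : ∀ m, m ≠ l → c m ≤ 0 := by
    intro m hm
    simp only [hc, he, real_inner_smul_right]
    have h1 := hι m l hm
    have h2 : 0 ≤ 1 / μ := by positivity
    nlinarith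
  rw [QQ_split ι a c hgram b, QQ_split ι a c hgram b', ← integral_mul_const, ← integral_mul_const]
  refine integral_mono ((integrable_section a c b).mul_const _) ((integrable_section a c b').mul_const _)
    (fun x => ?_)
  -- the section
  set C : Set ℝ := {t | ∀ m, m ≠ l → (inner ℝ x (a m) : ℝ) + t * c m ≤ b m} with hCdef
  have hCm : MeasurableSet C := by
    have : C = ⋂ m, {t : ℝ | m ≠ l → (inner ℝ x (a m) : ℝ) + t * c m ≤ b m} := by
      ext z; simp [hCdef]
    rw [this]
    refine MeasurableSet.iInter (fun m => ?_)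
    by_cases hm : m = l
    · simp [hm]
    · simp only [ne_eq, hm, not_false_eq_true, forall_const]
      exact measurableSet_le (by fun_prop) measurable_const
  have hup : ∀ t t', t ∈ C → t ≤ t' → t' ∈ C := by
    intro t t' ht htt m hm
    have h1 := ht m hm
    have h2 := hcm m hm
    nlinarith
  have hset : ∀ b'' : Fin n → ℝ, (∀ m, m ≠ l → b'' m = b m) →
      {t : ℝ | ∀ m, (inner ℝ x (a m) : ℝ) + t * c m ≤ b'' m} = C ∩ Set.Iic (b'' l / μ) := by
    intro b'' hb''
    ext t
    constructor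
    · intro ht
      refine ⟨fun m hm => ?_, ?_⟩
      · rw [← hb'' m hm]; exact ht m
      · have := ht l
        rw [hal, inner_zero_right, zero_add, hcl] at this
        exact (le_div_iff₀ hμ).mpr this
    · rintro ⟨h1, h2⟩ m
      by_cases hm : m = l
      · subst hm
        rw [hal, inner_zero_right, zero_add, hcl]
        exact (le_div_iff₀ hμ).mp h2
      · rw [hb'' m hm]; exact h1 m hm
  rw [hset b (fun _ _ => rfl), hset b' (fun m hm => (hother m hm).symm)]
  exact upset_ratio hCm hup (div_le_div_of_nonneg_right hb hμ.le)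

/-- `QQ` is monotone in the thresholds. -/
theorem QQ_mono (ι : Fin n → E d) {b b' : Fin n → ℝ} (hb : ∀ l, b l ≤ b' l) : QQ ι b ≤ QQ ι b' := by
  unfold QQ
  refine measureReal_mono (fun x hx l => le_trans (hx l) (hb l))

theorem QQ_nonneg (ι : Fin n → E d) (b : Fin n → ℝ) : 0 ≤ QQ ι b := measureReal_nonneg

/-- The chain of monotone ratios. -/
theorem QQ_chain (ι : Fin n → E d) (hι : ∀ l m, l ≠ m → (inner ℝ (ι l) (ι m) : ℝ) ≤ 0)
    (b b' : Fin n → ℝ) (hb : ∀ l, b l ≤ b' l) :
    QQ ι b * ∏ l with ι l ≠ 0, Ph (b' l / ‖ι l‖) ≤ QQ ι b' * ∏ l with ι l ≠ 0, Ph (b l / ‖ι l‖) := by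
  classical
  have key : ∀ S : Finset (Fin n), (∀ l ∈ S, ι l ≠ 0) →
      QQ ι b * ∏ l ∈ S, Ph (b' l / ‖ι l‖)
        ≤ QQ ι (fun l => if l ∈ S then b' l else b l) * ∏ l ∈ S, Ph (b l / ‖ι l‖) := by
    intro S
    induction S using Finset.induction_on with
    | empty =>
        intro _
        simp
    | insert l0 S hl0 ih =>
        intro hS
        have h1 := ih (fun l hl => hS l (Finset.mem_insert_of_mem hl))
        have h2 := QQ_ratio ι hι l0 (hS l0 (Finset.mem_insert_self _ _))
          (fun l => if l ∈ S then b' l else b l)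
          (fun l => if l ∈ insert l0 S then b' l else b l)
          (by simp [hl0, hb l0])
          (by
            intro m hm
            simp only [Finset.mem_insert, hm, false_or])
        simp only [hl0, if_false, Finset.mem_insert_self, if_true] at h2
        rw [Finset.prod_insert hl0, Finset.prod_insert hl0]
        have hPh : 0 ≤ ∏ l ∈ S, Ph (b l / ‖ι l‖) :=
          Finset.prod_nonneg (fun l _ => measureReal_nonneg)
        have hPh2 : 0 ≤ Ph (b' l0 / ‖ι l0‖) := measureReal_nonneg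
        calc QQ ι b * (Ph (b' l0 / ‖ι l0‖) * ∏ l ∈ S, Ph (b' l / ‖ι l‖))
            = (QQ ι b * ∏ l ∈ S, Ph (b' l / ‖ι l‖)) * Ph (b' l0 / ‖ι l0‖) := by ring
          _ ≤ (QQ ι (fun l => if l ∈ S then b' l else b l) * ∏ l ∈ S, Ph (b l / ‖ι l‖))
                * Ph (b' l0 / ‖ι l0‖) := mul_le_mul_of_nonneg_right h1 hPh2
          _ = (QQ ι (fun l => if l ∈ S then b' l else b l) * Ph (b' l0 / ‖ι l0‖))
                * ∏ l ∈ S, Ph (b l / ‖ι l‖) := by ring
          _ ≤ (QQ ι (fun l => if l ∈ insert l0 S then b' l else b l) * Ph (b l0 / ‖ι l0‖))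
                * ∏ l ∈ S, Ph (b l / ‖ι l‖) := mul_le_mul_of_nonneg_right h2 hPh
          _ = QQ ι (fun l => if l ∈ insert l0 S then b' l else b l)
                * (Ph (b l0 / ‖ι l0‖) * ∏ l ∈ S, Ph (b l / ‖ι l‖)) := by ring
  have h := key (Finset.univ.filter (fun l => ι l ≠ 0)) (fun l hl => (Finset.mem_filter.mp hl).2)
  refine le_trans h ?_
  refine mul_le_mul_of_nonneg_right ?_ (Finset.prod_nonneg (fun l _ => measureReal_nonneg))
  refine QQ_mono ι (fun l => ?_)
  split_ifs
  · exact le_rfl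
  · exact hb l

end Vale.Agent.Lib.P226
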