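import Vale.Agent.Lib.P226R.Defs
import Vale.Agent.Lib.P226.Law

/-!
Splitting the Gaussian law along a Gram decomposition: the joint law of inner products with a family
whose Gram matrix decomposes as a sum can be realised on a product space.
-/

open MeasureTheory ProbabilityTheory

namespace Vale.Agent.Lib.P226

variable {d : ℕ}

/-- A map to Euclidean space whose characteristic function is the Gaussian one of a family `w`
has the same law as the inner products with `w`. -/
theorem map_eq_of_charFun {m : ℕ} {Ω : Type*} [MeasurableSpace Ω] (μ : Measure Ω)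
    [IsProbabilityMeasure μ] (L : Ω → EuclideanSpace ℝ (Fin m)) (hL : Measurable L)
    (w : Fin m → E d)
    (hc : ∀ t : EuclideanSpace ℝ (Fin m),
      ∫ ω, Complex.exp ((inner ℝ (L ω) t : ℝ) * Complex.I) ∂μ
        = Complex.exp (-(‖∑ i, t i • w i‖ ^ 2 : ℝ) / 2)) :
    μ.map L = (gam d).map (formsL w) := by
  have : IsProbabilityMeasure (μ.map L) := Measure.isProbabilityMeasure_map hL.aemeasurable
  apply Measure.ext_of_charFun
  ext t
  rw [charFun_map_forms, charFun_apply, integral_map hL.aemeasurable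
    (Measurable.aestronglyMeasurable (by fun_prop))]
  simpa using hc t

/-- Transfer of integrals from the characteristic function identity. -/
theorem integral_eq_of_charFun {m : ℕ} {Ω : Type*} [MeasurableSpace Ω] (μ : Measure Ω)
    [IsProbabilityMeasure μ] (L : Ω → EuclideanSpace ℝ (Fin m)) (hL : Measurable L)
    (w : Fin m → E d)
    (hc : ∀ t : EuclideanSpace ℝ (Fin m),
      ∫ ω, Complex.exp ((inner ℝ (L ω) t : ℝ) * Complex.I) ∂μ
        = Complex.exp (-(‖∑ i, t i • w i‖ ^ 2 : ℝ) / 2))
    (F : (Fin m → ℝ) → ℝ) (hF : Measurable F) :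
    ∫ x, F (fun i => inner ℝ x (w i)) ∂(gam d) = ∫ ω, F (fun i => L ω i) ∂μ := by
  have hmeas : Measurable (fun y : EuclideanSpace ℝ (Fin m) => F (fun i => y i)) :=
    hF.comp (by fun_prop)
  have h1 : ∫ x, F (fun i => inner ℝ x (w i)) ∂(gam d)
      = ∫ y, F (fun i => y i) ∂((gam d).map (formsL w)) := by
    rw [integral_map (formsL w).continuous.aemeasurable hmeas.aestronglyMeasurable]
    simp only [formsL_apply]
  rw [h1, ← map_eq_of_charFun μ L hL w hc,
    integral_map hL.aemeasurable hmeas.aestronglyMeasurable]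

theorem charFun_gam_int {d₁ : ℕ} (A : E d₁) :
    ∫ x, Complex.exp ((inner ℝ x A : ℝ) * Complex.I) ∂(gam d₁)
      = Complex.exp (-(‖A‖ ^ 2 : ℝ) / 2) := by
  have h2 := charFun_stdGaussian (E := E d₁) A
  rw [charFun_apply] at h2
  rw [h2]
  push_cast
  rfl

theorem charFun_real_int (C : ℝ) :
    ∫ x : ℝ, Complex.exp (((x * C : ℝ) : ℂ) * Complex.I) ∂(gaussianReal 0 1)
      = Complex.exp (-(C ^ 2 : ℝ) / 2) := by
  have h2 := charFun_gaussianReal (μ := 0) (v := 1) C
  rw [charFun_apply] at h2
  have : ∀ x : ℝ, (inner ℝ x C : ℝ) = x * C := by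
    intro x; simp [mul_comm]
  simp only [this] at h2
  rw [h2]
  congr 1
  push_cast
  ring

theorem integral_split1 {m d₁ : ℕ} (w : Fin m → E d) (a : Fin m → E d₁) (c : Fin m → ℝ)
    (h : ∀ i j, (inner ℝ (w i) (w j) : ℝ) = inner ℝ (a i) (a j) + c i * c j)
    (F : (Fin m → ℝ) → ℝ) (hF : Measurable F) :
    ∫ x, F (fun i => inner ℝ x (w i)) ∂(gam d)
      = ∫ p, F (fun i => inner ℝ p.1 (a i) + p.2 * c i) ∂((gam d₁).prod (gaussianReal 0 1)) := by
  let L : E d₁ × ℝ → EuclideanSpace ℝ (Fin m) := fun p =>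
    (EuclideanSpace.equiv (Fin m) ℝ).symm (fun i => inner ℝ p.1 (a i) + p.2 * c i)
  have hL : Measurable L := by
    apply (EuclideanSpace.equiv (Fin m) ℝ).symm.continuous.measurable.comp
    apply measurable_pi_lambda
    intro i
    fun_prop
  have hLi : ∀ p i, L p i = inner ℝ p.1 (a i) + p.2 * c i := by
    intro p i; simp [L]
  have key := integral_eq_of_charFun ((gam d₁).prod (gaussianReal 0 1)) L hL w ?_ F hF
  · rw [key]
    simp only [hLi]
  · intro t
    set A : E d₁ := ∑ i, t i • a i with hA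
    set C : ℝ := ∑ i, t i * c i with hC
    have hinner : ∀ p : E d₁ × ℝ, (inner ℝ (L p) t : ℝ) = inner ℝ p.1 A + p.2 * C := by
      intro p
      have h1 : (inner ℝ p.1 A : ℝ) = ∑ i, t i * inner ℝ p.1 (a i) := by
        simp only [hA, inner_sum, inner_smul_right]
      have h3 : (inner ℝ (L p) t : ℝ) = ∑ i, L p i * t i := by
        simp only [PiLp.inner_apply, RCLike.inner_apply, conj_trivial, mul_comm]
      rw [h3, h1, hC, Finset.mul_sum, ← Finset.sum_add_distrib]
      apply Finset.sum_congr rfl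
      intro i _
      rw [hLi]
      ring
    have hnorm : ‖∑ i, t i • w i‖ ^ 2 = ‖A‖ ^ 2 + C ^ 2 := by
      rw [← real_inner_self_eq_norm_sq, ← real_inner_self_eq_norm_sq]
      simp only [hA, hC, sum_inner, inner_sum, real_inner_smul_left, real_inner_smul_right, h, sq,
        Finset.sum_mul, Finset.mul_sum]
      rw [← Finset.sum_add_distrib]
      apply Finset.sum_congr rfl
      intro i _
      rw [← Finset.sum_add_distrib]
      apply Finset.sum_congr rfl
      intro j _
      ring
    have hsplit : ∀ p : E d₁ × ℝ, Complex.exp ((inner ℝ (L p) t : ℝ) * Complex.I)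
        = Complex.exp ((inner ℝ p.1 A : ℝ) * Complex.I)
          * Complex.exp (((p.2 * C : ℝ) : ℂ) * Complex.I) := by
      intro p
      rw [hinner, ← Complex.exp_add]
      congr 1
      push_cast
      ring
    simp_rw [hsplit]
    rw [integral_prod_mul (fun x : E d₁ => Complex.exp ((inner ℝ x A : ℝ) * Complex.I))
      (fun y : ℝ => Complex.exp (((y * C : ℝ) : ℂ) * Complex.I)),
      charFun_gam_int, charFun_real_int, ← Complex.exp_add, hnorm]
    congr 1
    push_cast
    ring

theorem integral_split2 {m d₁ d₂ : ℕ} (w : Fin m → E d) (a : Fin m → E d₁) (b : Fin m → E d₂)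
    (c : Fin m → ℝ)
    (h : ∀ i j, (inner ℝ (w i) (w j) : ℝ) = inner ℝ (a i) (a j) + inner ℝ (b i) (b j) + c i * c j)
    (F : (Fin m → ℝ) → ℝ) (hF : Measurable F) :
    ∫ x, F (fun i => inner ℝ x (w i)) ∂(gam d)
      = ∫ p, F (fun i => inner ℝ p.2.1 (a i) + inner ℝ p.1 (b i) + p.2.2 * c i)
          ∂((gam d₂).prod ((gam d₁).prod (gaussianReal 0 1))) := by
  let L : E d₂ × (E d₁ × ℝ) → EuclideanSpace ℝ (Fin m) := fun p =>
    (EuclideanSpace.equiv (Fin m) ℝ).symm
      (fun i => inner ℝ p.2.1 (a i) + inner ℝ p.1 (b i) + p.2.2 * c i)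
  have hL : Measurable L := by
    apply (EuclideanSpace.equiv (Fin m) ℝ).symm.continuous.measurable.comp
    apply measurable_pi_lambda
    intro i
    fun_prop
  have hLi : ∀ p i, L p i = inner ℝ p.2.1 (a i) + inner ℝ p.1 (b i) + p.2.2 * c i := by
    intro p i; simp [L]
  have key := integral_eq_of_charFun ((gam d₂).prod ((gam d₁).prod (gaussianReal 0 1))) L hL w ?_ F hF
  · rw [key]
    simp only [hLi]
  · intro t
    set A : E d₁ := ∑ i, t i • a i with hA
    set B : E d₂ := ∑ i, t i • b i with hB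
    set C : ℝ := ∑ i, t i * c i with hC
    have hinner : ∀ p : E d₂ × (E d₁ × ℝ), (inner ℝ (L p) t : ℝ)
        = inner ℝ p.1 B + (inner ℝ p.2.1 A + p.2.2 * C) := by
      intro p
      have h1 : (inner ℝ p.2.1 A : ℝ) = ∑ i, t i * inner ℝ p.2.1 (a i) := by
        simp only [hA, inner_sum, inner_smul_right]
      have h2 : (inner ℝ p.1 B : ℝ) = ∑ i, t i * inner ℝ p.1 (b i) := by
        simp only [hB, inner_sum, inner_smul_right]
      have h3 : (inner ℝ (L p) t : ℝ) = ∑ i, L p i * t i := by
        simp only [PiLp.inner_apply, RCLike.inner_apply, conj_trivial, mul_comm]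
      rw [h3, h1, h2, hC, Finset.mul_sum, ← Finset.sum_add_distrib, ← Finset.sum_add_distrib]
      apply Finset.sum_congr rfl
      intro i _
      rw [hLi]
      ring
    have hnorm : ‖∑ i, t i • w i‖ ^ 2 = ‖A‖ ^ 2 + ‖B‖ ^ 2 + C ^ 2 := by
      rw [← real_inner_self_eq_norm_sq, ← real_inner_self_eq_norm_sq, ← real_inner_self_eq_norm_sq]
      simp only [hA, hB, hC, sum_inner, inner_sum, real_inner_smul_left, real_inner_smul_right, h,
        sq, Finset.sum_mul, Finset.mul_sum]
      rw [← Finset.sum_add_distrib, ← Finset.sum_add_distrib]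
      apply Finset.sum_congr rfl
      intro i _
      rw [← Finset.sum_add_distrib, ← Finset.sum_add_distrib]
      apply Finset.sum_congr rfl
      intro j _
      ring
    have hsplit : ∀ p : E d₂ × (E d₁ × ℝ), Complex.exp ((inner ℝ (L p) t : ℝ) * Complex.I)
        = Complex.exp ((inner ℝ p.1 B : ℝ) * Complex.I)
          * (Complex.exp ((inner ℝ p.2.1 A : ℝ) * Complex.I)
            * Complex.exp (((p.2.2 * C : ℝ) : ℂ) * Complex.I)) := by
      intro p
      rw [hinner, ← Complex.exp_add, ← Complex.exp_add]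
      congr 1
      push_cast
      ring
    simp_rw [hsplit]
    rw [integral_prod_mul (fun x : E d₂ => Complex.exp ((inner ℝ x B : ℝ) * Complex.I))
      (fun q : E d₁ × ℝ => Complex.exp ((inner ℝ q.1 A : ℝ) * Complex.I)
        * Complex.exp (((q.2 * C : ℝ) : ℂ) * Complex.I)),
      integral_prod_mul (fun x : E d₁ => Complex.exp ((inner ℝ x A : ℝ) * Complex.I))
      (fun y : ℝ => Complex.exp (((y * C : ℝ) : ℂ) * Complex.I)),
      charFun_gam_int, charFun_gam_int, charFun_real_int, ← Complex.exp_add, ← Complex.exp_add, hnorm]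
    congr 1
    push_cast
    ring

end Vale.Agent.Lib.P226
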